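import Vale.Agent.P011.H976.Newt

/-!
Coefficients of polynomials whose roots have different absolute values.
-/

open Polynomial
open scoped NNReal

set_option linter.unusedSectionVars false

namespace Vale.Agent.P011.H872.GF

section coeff

variable {L : Type*} [NormedField L] [IsUltrametricDist L]

/-- Coefficients of a product of linear factors whose roots have increasing absolute values. -/
theorem norm_coeff_prod (m : ℕ) : ∀ r : Fin m → L, (∀ i, r i ≠ 0) →
    (∀ i j, i < j → ‖r i‖ < ‖r j‖) →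
    (∀ i, i ≤ m → (∏ i, (X - C (r i))).coeff i ≠ 0) ∧
    ∀ (i : ℕ) (hi : i < m), ‖(∏ i, (X - C (r i))).coeff i‖ =
      ‖r ⟨i, hi⟩‖ * ‖(∏ i, (X - C (r i))).coeff (i + 1)‖ := by
  induction m with
  | zero =>
    intro r _ _
    refine ⟨fun i hi => ?_, fun i hi => absurd hi (Nat.not_lt_zero i)⟩
    rw [Nat.le_zero.mp hi]
    simp
  | succ m ih =>
    intro r hr0 hr
    obtain ⟨P, hP⟩ : ∃ P : L[X], P = ∏ i : Fin m, (X - C (r i.castSucc)) := ⟨_, rfl⟩
    obtain ⟨s, hs⟩ : ∃ s, s = r (Fin.last m) := ⟨_, rfl⟩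
    have hs0 : s ≠ 0 := by rw [hs]; exact hr0 _
    obtain ⟨g1, g2⟩ := ih (fun i => r i.castSucc) (fun i => hr0 _)
      (fun i j hij => hr _ _ (Fin.castSucc_lt_castSucc_iff.mpr hij))
    rw [← hP] at g1 g2
    have hmon : P.Monic := by
      rw [hP]
      exact monic_prod_of_monic _ _ fun i _ => monic_X_sub_C _
    have hdeg : P.natDegree = m := by
      rw [hP, natDegree_prod_of_monic _ _ fun i _ => monic_X_sub_C _]
      simp
    have hPm : P.coeff m = 1 := by
      rw [← hdeg]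
      exact hmon
    rw [Fin.prod_univ_castSucc, ← hP, ← hs]
    have hc0 : (P * (X - C s)).coeff 0 = -(P.coeff 0 * s) := by
      rw [mul_sub, coeff_sub, coeff_mul_X_zero, coeff_mul_C, zero_sub]
    have hc1 : ∀ i, (P * (X - C s)).coeff (i + 1) = P.coeff i - P.coeff (i + 1) * s := by
      intro i
      rw [mul_sub, coeff_sub, coeff_mul_X, coeff_mul_C]
    have key : ∀ i, i ≤ m → ‖(P * (X - C s)).coeff i‖ = ‖s‖ * ‖P.coeff i‖ := by
      intro i hi
      cases i with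
      | zero => rw [hc0, norm_neg, norm_mul, mul_comm]
      | succ i =>
        have h1 := g2 i (by omega)
        have h2 : ‖P.coeff i‖ < ‖P.coeff (i + 1) * s‖ := by
          rw [h1, norm_mul, mul_comm ‖P.coeff (i + 1)‖]
          refine mul_lt_mul_of_pos_right ?_ (norm_pos_iff.mpr (g1 _ (by omega)))
          rw [hs]
          exact hr _ _ (Fin.castSucc_lt_last _)
        have h3 : ‖P.coeff i‖ ≠ ‖-(P.coeff (i + 1) * s)‖ := by
          rw [norm_neg]
          exact h2.ne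
        rw [hc1, sub_eq_add_neg, IsUltrametricDist.norm_add_eq_max_of_norm_ne_norm h3, norm_neg,
          max_eq_right h2.le, norm_mul, mul_comm]
    have hlast : (P * (X - C s)).coeff (m + 1) = 1 := by
      rw [hc1, hPm, coeff_eq_zero_of_natDegree_lt (by omega), zero_mul, sub_zero]
    refine ⟨fun i hi => ?_, fun i hi => ?_⟩
    · rcases Nat.lt_or_eq_of_le hi with h | h
      · rw [← norm_pos_iff, key i (by omega)]
        exact mul_pos (norm_pos_iff.mpr hs0) (norm_pos_iff.mpr (g1 i (by omega)))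
      · rw [h, hlast]
        exact one_ne_zero
    · rcases Nat.lt_or_eq_of_le (Nat.lt_succ_iff.mp hi) with h | h
      · rw [key i (by omega), key (i + 1) (by omega), g2 i h]
        have h4 : (⟨i, h⟩ : Fin m).castSucc = ⟨i, hi⟩ := rfl
        rw [h4]
        ring
      · subst h
        rw [key i le_rfl, hPm, hlast, hs]
        rfl

/-- The strict Newton condition. -/
theorem newton_of_roots {m : ℕ} {r : Fin m → L} (hr0 : ∀ i, r i ≠ 0)
    (hr : ∀ i j, i < j → ‖r i‖ < ‖r j‖) (i : ℕ) (hi0 : 0 < i) (hi : i < m) :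
    ‖(∏ i, (X - C (r i))).coeff (i - 1)‖ * ‖(∏ i, (X - C (r i))).coeff (i + 1)‖ <
      ‖(∏ i, (X - C (r i))).coeff i‖ ^ 2 := by
  obtain ⟨g1, g2⟩ := norm_coeff_prod m r hr0 hr
  obtain ⟨i, rfl⟩ : ∃ l, i = l + 1 := ⟨i - 1, by omega⟩
  rw [Nat.add_sub_cancel]
  have h1 := g2 i (by omega)
  have h2 := g2 (i + 1) hi
  obtain ⟨A, hA⟩ : ∃ A, A = ‖(∏ i, (X - C (r i))).coeff (i + 1)‖ := ⟨_, rfl⟩
  obtain ⟨A', hA'⟩ : ∃ A, A = ‖(∏ i, (X - C (r i))).coeff (i + 1 + 1)‖ := ⟨_, rfl⟩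
  rw [h1, ← hA, ← hA']
  rw [← hA, ← hA'] at h2
  have h3 : 0 < A := by rw [hA]; exact norm_pos_iff.mpr (g1 _ (by omega))
  have h4 : 0 < A' := by rw [hA']; exact norm_pos_iff.mpr (g1 _ (by omega))
  have h5 := hr ⟨i, by omega⟩ ⟨i + 1, hi⟩ (by rw [Fin.mk_lt_mk]; omega)
  calc ‖r ⟨i, _⟩‖ * A * A' < ‖r ⟨i + 1, hi⟩‖ * A * A' :=
        mul_lt_mul_of_pos_right (mul_lt_mul_of_pos_right h5 h3) h4
    _ = A ^ 2 := by rw [pow_two]; nth_rewrite 3 [h2]; ring

/-- **Newton over a complete normed field.** -/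
theorem newt_norm [CompleteSpace L] {P : L[X]} {m : ℕ} (hm : P.Monic) (hn : P.natDegree = m)
    (h0 : P.coeff 0 ≠ 0) (hc : ∀ i, 0 < i → i < m →
      ‖P.coeff (i - 1)‖ * ‖P.coeff (i + 1)‖ < ‖P.coeff i‖ ^ 2) :
    ∃ r : Fin m → L, (∀ i, ‖r i‖ * ‖P.coeff (i + 1)‖ = ‖P.coeff i‖) ∧
      (∀ i j, i < j → ‖r i‖ < ‖r j‖) ∧ P = ∏ i, (X - C (r i)) := by
  have hv : ∀ x : L, ‖x‖ = ((NormedField.valuation x : ℝ≥0) : ℝ) := fun x => rfl
  have hH : H976.Newt.Hen (NormedField.valuation : Valuation L ℝ≥0) :=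
    H976.Newt.hen_of_norm _ fun x => by
      rw [hv]
      exact_mod_cast Iff.rfl
  obtain ⟨r, h1, h2, h3⟩ := H976.Newt.newt hH hm hn h0 fun i hi hi' => by
    have h4 := hc i hi hi'
    rw [hv, hv, hv] at h4
    exact_mod_cast h4
  refine ⟨r, fun i => ?_, fun i j hij => ?_, h3⟩
  · have h4 := h1 i
    rw [hv, hv, hv]
    exact_mod_cast h4
  · have h4 := h2 i j hij
    rw [hv, hv]
    exact_mod_cast h4

end coeff

end Vale.Agent.P011.H872.GF
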