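import Vale.Agent.P011.H519.SplitPlaceK

/-!
Places of a function field at which finitely many elements are squares.
-/

open Module IsDedekindDomain Polynomial
open Vale.Agent.P011.H738 Vale.Agent.P011.H271 Vale.Agent.P011.H519

set_option linter.unusedSectionVars false

namespace Vale.Agent.P011.H872.GF

/-- A finite separable extension embeds in the completion at a place outside a finite set. -/
theorem exists_place_hom {k M : Type} [Field k] [hgff : GFF k] [Field M] [Algebra k M]
    [FiniteDimensional k M] [Algebra.IsSeparable k M] {S : Set (Place k)} (hS : S.Finite) :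
    ∃ q ∉ S, Nonempty (M →ₐ[k] q.comp) := by
  classical
  obtain ⟨F, _, _, φ₀, hφ1, hφ2⟩ := hgff.out
  let _ : Algebra (RatFunc F) k := φ₀.toAlgebra
  have hfd : FiniteDimensional (RatFunc F) k := hφ1
  have hsep : Algebra.IsSeparable (RatFunc F) k := hφ2
  let _ : Algebra (RatFunc F) M := ((algebraMap k M).comp φ₀).toAlgebra
  have htow : IsScalarTower (RatFunc F) k M := IsScalarTower.of_algebraMap_eq fun _ => rfl
  have hfd' : FiniteDimensional (RatFunc F) M := FiniteDimensional.trans (RatFunc F) k M
  have hsep' : Algebra.IsSeparable (RatFunc F) M := Algebra.IsSeparable.trans (RatFunc F) k M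
  have hunits := finite_units_poly F
  obtain ⟨v, hv, hsplit⟩ := exists_splits (A := F[X]) (K₀ := RatFunc F) (L := M)
    (finite_below (A := F[X]) (K₀ := RatFunc F) hS.toFinset)
  obtain ⟨τ⟩ : Nonempty (M →ₐ[RatFunc F] v.adicCompletion (RatFunc F)) := by
    have h1 := AlgHom.natCard_of_splits (RatFunc F) M _ hsplit
    have h2 : Nat.card (M →ₐ[RatFunc F] v.adicCompletion (RatFunc F)) ≠ 0 := by
      rw [h1]
      exact finrank_pos.ne'
    by_contra h3
    rw [not_nonempty_iff] at h3
    exact h2 Nat.card_of_isEmpty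
  let s : k →ₐ[RatFunc F] v.adicCompletion (RatFunc F) :=
    τ.comp (IsScalarTower.toAlgHom (RatFunc F) k M)
  obtain ⟨q, hq⟩ := exists_place s
  obtain ⟨e, he⟩ := exists_equiv hq
  have hqK : ∀ y : RatFunc F, (toPl q).v (algebraMap (RatFunc F) k y) = v.valuation _ y := by
    intro y
    rw [hq, s.commutes]
    exact HeightOneSpectrum.valuedAdicCompletion_eq_valuation' v y
  have hes : ∀ x : k, e.symm (s x) = algebraMap k q.comp x := fun x => by
    rw [← he, RingEquiv.symm_apply_apply]
  refine ⟨q, fun hqT => hv ⟨q, hS.mem_toFinset.mpr hqT, hqK⟩, ⟨{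
    (e.symm.toRingHom.comp τ.toRingHom) with
      commutes' := fun c => ?_ }⟩⟩
  exact hes c

/-- Two given elements are squares at some place outside a given finite set. -/
theorem exists_place_sq {k : Type} [Field k] [GFF k] (h2 : (2 : k) ≠ 0) (a d : kˣ)
    {S : Set (Place k)} (hS : S.Finite) : ∃ v ∉ S, (∃ α : v.comp, α ^ 2 = algebraMap k v.comp a) ∧
      ∃ α : v.comp, α ^ 2 = algebraMap k v.comp d := by
  classical
  let Ω := AlgebraicClosure k
  obtain ⟨x, hx⟩ := IsAlgClosed.exists_pow_nat_eq (algebraMap k Ω a) two_pos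
  obtain ⟨y, hy⟩ := IsAlgClosed.exists_pow_nat_eq (algebraMap k Ω d) two_pos
  have key : ∀ (c : kˣ) (z : Ω), z ^ 2 = algebraMap k Ω c → IsIntegral k z ∧ IsSeparable k z := by
    intro c z hz
    have h3 : (X ^ 2 - C (c : k)).Separable :=
      separable_X_pow_sub_C (c : k) (n := 2) (by exact_mod_cast h2) c.ne_zero
    have h4 : aeval z (X ^ 2 - C (c : k)) = 0 := by
      rw [map_sub, map_pow, aeval_X, aeval_C, hz, sub_self]
    refine ⟨⟨X ^ 2 - C (c : k), monic_X_pow_sub_C _ two_ne_zero, ?_⟩, ?_⟩
    · rwa [aeval_def] at h4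
    · exact h3.of_dvd (minpoly.dvd k z h4)
  let M := IntermediateField.adjoin k ({x, y} : Set Ω)
  have hfin : FiniteDimensional k M := by
    refine IntermediateField.finiteDimensional_adjoin fun z hz => ?_
    rcases hz with rfl | hz
    · exact (key a _ hx).1
    · rw [Set.mem_singleton_iff] at hz
      subst hz
      exact (key d _ hy).1
  have hsep : Algebra.IsSeparable k M := by
    refine (IntermediateField.isSeparable_adjoin_iff_isSeparable k Ω).mpr fun z hz => ?_
    rcases hz with rfl | hz
    · exact (key a _ hx).2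
    · rw [Set.mem_singleton_iff] at hz
      subst hz
      exact (key d _ hy).2
  obtain ⟨v, hv, ⟨φ⟩⟩ := exists_place_hom (M := M) hS
  have hxM : x ∈ M := IntermediateField.subset_adjoin k _ (Or.inl rfl)
  have hyM : y ∈ M := IntermediateField.subset_adjoin k _ (Or.inr rfl)
  refine ⟨v, hv, ⟨φ ⟨x, hxM⟩, ?_⟩, ⟨φ ⟨y, hyM⟩, ?_⟩⟩
  · rw [← map_pow, ← φ.commutes]
    congr 1
    exact Subtype.ext hx
  · rw [← map_pow, ← φ.commutes]
    congr 1
    exact Subtype.ext hy

end Vale.Agent.P011.H872.GF
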