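import Vale.Agent.P011.H872.GF.SepJ
import Vale.Agent.P011.H496.Q1

/-!
**The good field of the doubling step over a global function field.**
-/

open Matrix Module Polynomial Filter Topology

set_option linter.unusedSectionVars false

namespace Vale.Agent.P011.H872.GF

open Vale.Agent.P011.H738 Vale.Agent.P011.H271 Vale.Agent.P011.H487 Vale.Agent.P011.H305
open Vale.Agent.P011.H872.FF Vale.Agent.P011.H961
open Vale.Agent.P011.H271.S3 (Ab)
open Vale.Agent.P011.Arith (NF)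
open Vale.Agent.P011.H63.FB (LSF incF)
open Vale.Agent.P011.H698 (Sm Bd)

variable {k K D : Type} [Field k] [Field K] [StarRing K] [DivisionRing D] [StarRing D]
  [Algebra k K] [Algebra k D] [Algebra K D] [IsScalarTower k K D] {d : kˣ} {s : K} {n m N : ℕ}

/-- The projection on the antisymmetric elements which anticommute with `t`. -/
theorem exists_proj (hS : SetF k K D d s) {a : kˣ} {t : D} (ht : t ∈ XaF D a) :
    ∃ pr : D →ₗ[k] D, (∀ x, pr x ∈ Wt t) ∧ ∀ j ∈ Wt t, pr j = j := by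
  obtain ⟨ht1, ht2⟩ := ht
  have h2 := hS.two_ne
  obtain ⟨b, hb⟩ : ∃ b : k, b = (a : k)⁻¹ := ⟨_, rfl⟩
  have hba : b * (a : k) = 1 := by rw [hb, inv_mul_cancel₀ a.ne_zero]
  let st : D →ₗ[k] D :=
    { toFun := star
      map_add' := star_add
      map_smul' := fun c x => by
        rw [RingHom.id_apply]
        exact hS.star_smulk c x }
  let sk : D →ₗ[k] D := (2 : k)⁻¹ • (LinearMap.id - st)
  let an : D →ₗ[k] D := (2 : k)⁻¹ • (LinearMap.id - b •
    ((LinearMap.mulLeft k t).comp (LinearMap.mulRight k t)))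
  have hsk : ∀ x, sk x = (2 : k)⁻¹ • (x - star x) := fun x => rfl
  have han : ∀ x, an x = (2 : k)⁻¹ • (x - b • (t * (x * t))) := fun x => rfl
  have hts : ∀ x : D, t * (t * x) = (a : k) • x := fun x => by
    rw [← mul_assoc, ht2, Algebra.algebraMap_eq_smul_one, smul_mul_assoc, one_mul]
  have hts' : ∀ x : D, x * t * t = (a : k) • x := fun x => by
    rw [mul_assoc, ht2, Algebra.algebraMap_eq_smul_one, mul_smul_comm, mul_one]
  refine ⟨an.comp sk, fun x => ?_, fun j hj => ?_⟩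
  · rw [LinearMap.comp_apply]
    obtain ⟨y, hy⟩ : ∃ y, y = sk x := ⟨_, rfl⟩
    have hys : star y = -y := by
      rw [hy, hsk, hS.star_smulk, star_sub, star_star, ← smul_neg, neg_sub]
    rw [← hy, han]
    refine ⟨?_, ?_⟩
    · rw [hS.star_smulk, star_sub, hS.star_smulk, star_mul, star_mul, ht1, hys, ← smul_neg]
      congr 1
      rw [mul_neg, neg_mul, smul_neg, sub_neg_eq_add, mul_assoc, neg_sub, add_comm,
        ← sub_eq_add_neg]
    · rw [smul_mul_assoc, mul_smul_comm, ← smul_neg]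
      congr 1
      rw [sub_mul, mul_sub, smul_mul_assoc, mul_smul_comm, hts, ← mul_assoc t y t, hts',
        smul_smul, smul_smul, hba, one_smul, one_smul, neg_sub]
  · rw [LinearMap.comp_apply]
    have e1 : sk j = j := by
      rw [hsk, hj.1, sub_neg_eq_add, ← two_smul k, smul_smul, inv_mul_cancel₀ h2, one_smul]
    rw [e1, han, hj.2, mul_neg, hts, smul_neg, smul_smul, hba, one_smul, sub_neg_eq_add,
      ← two_smul k, smul_smul, inv_mul_cancel₀ h2, one_smul]

/-- The local conditions at almost all places. -/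
theorem exists_local [GFF k] (hS : SetF k K D d s) (hm : 0 < m)
    (hdeg : finrank K D = (2 * m) ^ 2) (B : Basis (Fin N) k D) {a : kˣ} {t : D}
    (ht : t ∈ XaF D a) (ha : ¬ IsSquare (a : k)) :
    ∃ S : Set (Place k), S.Finite ∧ ∀ v ∉ S, ∃ (c : Fin m → k) (jv : D) (ε : ℝ),
      (∀ i, c i ≠ 0) ∧ (∀ i j, i < j → v.abv (c i) < v.abv (c j)) ∧ jv ∈ Wt t ∧ 0 < ε ∧
      BallAt B v m t c jv ε := by
  have hsm := hS.starModule
  have hA := hS.anis hdeg
  have hcen := hA.central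
  have hsim := hA.simple
  have h2k := hS.two_ne
  have hn0 : 2 * m ≠ 0 := by omega
  obtain ⟨j0, hj0, hj00, hsep⟩ := exists_sepJ hS hm hdeg B ht ha
  obtain ⟨S1, hS1, hnear⟩ := H496.NF.exists_near_one hS ht B hj00 hj0.1 hj0.2 hsep
  obtain ⟨T, hT⟩ := exists_split_ae (k := k) (A := D) hA.fixed hn0 hA.finrank_eq
  refine ⟨(S1 ∪ T) ∪ {v | v.abv (2 : k) ≠ 1}, (hS1.union T.finite_toSet).union
    (place_finite h2k), fun v hv => ?_⟩
  rw [Set.mem_union, Set.mem_union, not_or, not_or, Set.mem_ofPred_eq, not_not] at hv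
  obtain ⟨⟨hv1, hvT⟩, hv2⟩ := hv
  have hvT' : v ∉ T := fun h => hvT (Finset.mem_coe.mpr h)
  obtain ⟨c, hc0, hc⟩ := exists_incr v m
  by_cases hsp : Nonempty (K →ₐ[k] v.comp)
  · obtain ⟨φ⟩ := hsp
    let _ := nnfPlace v
    have hn1 : ∀ c : k, ‖(φ : K →+* v.comp) (algebraMap k K c)‖ = v.abv c := fun c => by
      change ‖φ (algebraMap k K c)‖ = _
      rw [φ.commutes, norm_alg]
    obtain ⟨g, hg⟩ := hT v hvT' v.comp (φ : K →+* v.comp) hn1
    obtain ⟨Y, h1, h2⟩ := pre_split hS rfl hn0 hdeg B ht hv2 (hnear v hv1) hg c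
    obtain ⟨jv, hjv, ε, hε, hb⟩ := exists_ball (φ := (φ : K →+* v.comp)) hS B ht hn1 hm rfl hg
      hc0 hc h1 h2
    exact ⟨c, jv, ε, hc0, hc, hjv, hε, hb⟩
  · rw [not_nonempty_iff] at hsp
    obtain ⟨L, _, _, _, _, _, φ, hst, hφs, hd, hφ, hnorm, -⟩ :=
      exists_quad_field hA.fixed hA.star_ne v hsp
    have hn1 : ∀ c : k, ‖φ (algebraMap k K c)‖ = v.abv c := fun c => by
      rw [hφ, hnorm, norm_alg]
    obtain ⟨g, hg⟩ := hT v hvT' L φ hn1
    obtain ⟨Y, h1, h2⟩ := pre_nonsplit hS rfl hn0 hdeg B ht hv2 (hnear v hv1) hst hφs hd hn1 hg c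
    obtain ⟨jv, hjv, ε, hε, hb⟩ := exists_ball hS B ht hn1 hm rfl hg hc0 hc h1 h2
    exact ⟨c, jv, ε, hc0, hc, hjv, hε, hb⟩

/-- **The good field.** -/
theorem exists_goodE [GFF k] (hS : SetF k K D d s) {m : ℕ} (hm : 0 < m)
    (hdeg : finrank K D = (2 * m) ^ 2) {a : kˣ} {t : D} (ht : t ∈ XaF D a)
    (ha : ¬ IsSquare (a : k)) (_had : ¬ IsSquare ((a * d : kˣ) : k)) :
    ∃ S : Set (Place k), S.Finite ∧ ∀ V : Set (Place k), V.Finite → Disjoint V S →
      ∃ j : D, j ≠ 0 ∧ star j = -j ∧ j * t = -(t * j) ∧ (minpoly k (j * j)).natDegree = m ∧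
        (minpoly k (j * j)).Separable ∧
        (∀ v ∈ V, ((minpoly k (j * j)).map (algebraMap k v.comp)).Splits) ∧
        ∀ (F : Type) [Field F] [GFF F] [Algebra k F] (β : Fˣ),
          Polynomial.aeval (β : F) (minpoly k (j * j)) = 0 → ∀ v ∈ V, ∀ ω : Place F, Ab ω v →
            β ∈ NF (incF k F (a * d)) ⊔ LSF ω := by
  classical
  have hfd := hS.fin
  have hKf : FiniteDimensional k K := Module.finite_of_finrank_pos (by rw [hS.rank]; norm_num)
  have hDf : FiniteDimensional k D := Module.Finite.trans K D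
  let B : Basis (Fin (finrank k D)) k D := Module.finBasis k D
  obtain ⟨S0, hS0, hloc⟩ := exists_local hS hm hdeg B ht ha
  have hSf : (S0 ∪ {v : Place k | v.abv ((a * d : kˣ) : k) ≠ 1}).Finite :=
    hS0.union (place_finite (a * d).ne_zero)
  refine ⟨_, hSf, fun V hV hVS => ?_⟩
  obtain ⟨v1, hv1, -⟩ := exists_place_hom (M := k) hSf
  choose! c jv ε hc0 hc hjv hε hball using hloc
  obtain ⟨V', hV'd⟩ : ∃ V' : Finset (Place k), V' = insert v1 hV.toFinset := ⟨_, rfl⟩
  have hV' : ∀ v ∈ V', v ∉ S0 ∪ {v : Place k | v.abv ((a * d : kˣ) : k) ≠ 1} := by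
    intro v hv
    rw [hV'd, Finset.mem_insert] at hv
    rcases hv with rfl | hv
    · exact hv1
    · exact Set.disjoint_left.mp hVS (hV.mem_toFinset.mp hv)
  have hV'1 : ∀ v ∈ V', v ∉ S0 := fun v hv h => hV' v hv (Or.inl h)
  obtain ⟨pr, hpr1, hpr2⟩ := exists_proj hS ht
  obtain ⟨C, hC1, -, hC⟩ := H698.lin_bd B B pr
  -- weak approximation
  obtain ⟨δ, hδ, hδle⟩ := H698.exists_pos_le (fun v : V' => ε (v : Place k) / (2 * C v))
    fun v => div_pos (hε _ (hV'1 _ v.2)) (by have := hC1 v; linarith)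
  choose y hy using fun i => H973.PF.weakP V' (fun v => B.repr (jv v) i) hδ
  obtain ⟨x, hx⟩ : ∃ x : D, x = ∑ i, y i • B i := ⟨_, rfl⟩
  have hxr : ∀ i, B.repr x i = y i := fun i => by
    rw [hx, B.repr_sum_self]
  have hxv : ∀ v ∈ V', Sm B v (ε v) (pr x - jv v) := by
    intro v hv
    have h1 : Bd B v δ (x - jv v) := fun i => by
      rw [map_sub, Finsupp.sub_apply, hxr]
      exact (hy i v hv).le
    have h2 := hC v δ _ hδ.le h1
    rw [map_sub, hpr2 _ (hjv v (hV'1 v hv))] at h2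
    refine h2.sm ?_
    have h3 := hδle ⟨v, hv⟩
    have h4 : 0 < C v := zero_lt_one.trans_le (hC1 v)
    have h5 := hε v (hV'1 v hv)
    change δ ≤ ε v / (2 * C v) at h3
    rw [le_div_iff₀ (by positivity)] at h3
    linarith
  have hspec := fun v (hv : v ∈ V') => ball_spec hS B (hc0 v (hV'1 v hv)) (hc v (hV'1 v hv))
    (hball v (hV'1 v hv)) (hpr1 x) (hxv v hv)
  have hmem : v1 ∈ V' := by
    rw [hV'd]
    exact Finset.mem_insert_self _ _
  have hVV : ∀ v ∈ V, v ∈ V' := fun v hv => by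
    rw [hV'd]
    exact Finset.mem_insert_of_mem (hV.mem_toFinset.mpr hv)
  obtain ⟨h1, h2, h3, -, -⟩ := hspec v1 hmem
  refine ⟨pr x, h1, (hpr1 x).1, (hpr1 x).2, h2, h3, fun v hv => (hspec v (hVV v hv)).2.2.2.1,
    fun F _ _ _ β hβ v hv ω hω => ?_⟩
  have hv' := hVV v hv
  obtain ⟨-, -, -, -, h7⟩ := hspec v hv'
  have had : v.abv ((a * d : kˣ) : k) = 1 := by
    by_contra hcon
    exact hV' v hv' (Or.inr hcon)
  exact root_mem hS.two_ne (hc0 v (hV'1 v hv')) (hc v (hV'1 v hv'))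
    (minpoly.monic (IsIntegral.of_finite k _)) h2 h7 had hβ hω

end Vale.Agent.P011.H872.GF
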