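import Vale.Agent.P011.H872.GF.LocB
import Vale.Agent.P011.H961.StepF

/-!
The consequences of the local condition.
-/

open Matrix Module Polynomial Filter Topology

set_option linter.unusedSectionVars false

namespace Vale.Agent.P011.H872.GF

open Vale.Agent.P011.H738 Vale.Agent.P011.H271 Vale.Agent.P011.H487 Vale.Agent.P011.H305
open Vale.Agent.P011.H872.FF Vale.Agent.P011.H961
open Vale.Agent.P011.H271.S3 (Ab)
open Vale.Agent.P011.Arith (NF)
open Vale.Agent.P011.H63.FB (LSF incF)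
open Vale.Agent.P011.H698 (Sm Bd)

/-- The roots of a polynomial with the given sizes of coefficients. -/
theorem newt_data {k : Type} [Field k] {v : Place k} {m : ℕ} {c : Fin m → k}
    (hc0 : ∀ i, c i ≠ 0) (hc : ∀ i j, i < j → v.abv (c i) < v.abv (c j)) {μ : k[X]}
    (hμ : μ.Monic) (hdeg : μ.natDegree = m) (hco : ∀ i, i ≤ m → v.abv (μ.coeff i) =
      v.abv ((∏ i, (X - C (c i ^ 2)) : k[X]).coeff i))
    {E : Type} [NormedField E] [IsUltrametricDist E] [CompleteSpace E] (f : k →+* E) {e : ℝ}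
    (he : 0 < e) (hf : ∀ x, ‖f x‖ = v.abv x ^ e) :
    ∃ r : Fin m → E, μ.map f = ∏ i, (X - C (r i)) ∧ (∀ i j, i < j → ‖r i‖ < ‖r j‖) ∧
      ∀ i, ‖r i‖ = ‖f (c i)‖ ^ 2 := by
  obtain ⟨Q, hQ⟩ : ∃ Q : k[X], Q = ∏ i, (X - C (c i ^ 2)) := ⟨_, rfl⟩
  rw [← hQ] at hco
  have hQm : Q.map f = ∏ i, (X - C (f (c i) ^ 2)) := by
    rw [hQ, Polynomial.map_prod]
    exact Finset.prod_congr rfl fun i _ => by
      rw [Polynomial.map_sub, map_X, map_C, map_pow]
  have h1 : ∀ i, f (c i) ^ 2 ≠ 0 := fun i =>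
    pow_ne_zero _ ((_root_.map_ne_zero _).mpr (hc0 i))
  have h2 : ∀ i j, i < j → ‖f (c i) ^ 2‖ < ‖f (c j) ^ 2‖ := fun i j hij => by
    rw [norm_pow, norm_pow, hf, hf]
    exact pow_lt_pow_left₀ (Real.rpow_lt_rpow (v.abv.nonneg _) (hc i j hij) he)
      (Real.rpow_nonneg (v.abv.nonneg _) _) two_ne_zero
  obtain ⟨w1, w2⟩ := norm_coeff_prod m (fun i => f (c i) ^ 2) h1 h2
  have w3 := fun i hi0 hi => newton_of_roots (m := m) (r := fun i => f (c i) ^ 2) h1 h2 i hi0 hi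
  rw [← hQm] at w1 w2 w3
  have w4 : ∀ i, i ≤ m → ‖(μ.map f).coeff i‖ = ‖(Q.map f).coeff i‖ := fun i hi => by
    rw [coeff_map, coeff_map, hf, hf, hco i hi]
  obtain ⟨r, h3, h4, h5⟩ := newt_norm (P := μ.map f) (m := m) (hμ.map f)
    (by rw [natDegree_map, hdeg]) (by
      rw [← norm_ne_zero_iff, w4 0 (Nat.zero_le _), norm_ne_zero_iff]
      exact w1 0 (Nat.zero_le _)) fun i hi0 hi => by
        rw [w4 _ (by omega), w4 _ (by omega), w4 _ (by omega)]
        exact w3 i hi0 hi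
  refine ⟨r, h5, h4, fun i => ?_⟩
  have h6 := h3 i
  have h7 := w2 i i.2
  rw [← w4 i i.2.le, ← w4 (i + 1) i.2, ← h6] at h7
  have h8 : ‖(μ.map f).coeff (i + 1)‖ ≠ 0 := by
    rw [w4 _ i.2, norm_ne_zero_iff]
    exact w1 _ i.2
  have h9 := mul_right_cancel₀ h8 h7
  rw [h9, ← norm_pow]

theorem sep_splits {k : Type} [Field k] {v : Place k} {m : ℕ} {c : Fin m → k}
    (hc0 : ∀ i, c i ≠ 0) (hc : ∀ i j, i < j → v.abv (c i) < v.abv (c j)) {μ : k[X]}
    (hμ : μ.Monic) (hdeg : μ.natDegree = m) (hco : ∀ i, i ≤ m → v.abv (μ.coeff i) =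
      v.abv ((∏ i, (X - C (c i ^ 2)) : k[X]).coeff i)) :
    μ.Separable ∧ (μ.map (algebraMap k v.comp)).Splits := by
  obtain ⟨r, h1, h2, -⟩ := newt_data hc0 hc hμ hdeg hco (algebraMap k v.comp) zero_lt_one
    fun x => by rw [norm_alg, Real.rpow_one]
  have hinj : Function.Injective r := by
    intro i j hij
    rcases lt_trichotomy i j with h | h | h
    · have := h2 i j h
      rw [hij] at this
      exact absurd this (lt_irrefl _)
    · exact h
    · have := h2 j i h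
      rw [hij] at this
      exact absurd this (lt_irrefl _)
  refine ⟨?_, ?_⟩
  · rw [← Polynomial.separable_map (algebraMap k v.comp), h1]
    exact Polynomial.separable_prod_X_sub_C_iff.mpr hinj
  · rw [h1]
    exact Splits.prod fun i _ => Splits.X_sub_C _

theorem root_mem {k F : Type} [Field k] [GFF k] [Field F] [GFF F] [Algebra k F]
    (h2 : (2 : k) ≠ 0) {v : Place k} {m : ℕ} {c : Fin m → k}
    (hc0 : ∀ i, c i ≠ 0) (hc : ∀ i j, i < j → v.abv (c i) < v.abv (c j)) {μ : k[X]}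
    (hμ : μ.Monic) (hdeg : μ.natDegree = m) (hco : ∀ i, i ≤ m → v.abv (μ.coeff i) =
      v.abv ((∏ i, (X - C (c i ^ 2)) : k[X]).coeff i)) {b : kˣ} (hb : v.abv (b : k) = 1)
    {β : Fˣ} (hβ : aeval (β : F) μ = 0) {ω : Place F} (hω : Ab ω v) :
    β ∈ NF (incF k F b) ⊔ LSF ω := by
  obtain ⟨e, he, hωe⟩ := hω
  let f : k →+* ω.comp := (algebraMap F ω.comp).comp (algebraMap k F)
  have hf : ∀ x, ‖f x‖ = v.abv x ^ e := fun x => by
    change ‖algebraMap F ω.comp (algebraMap k F x)‖ = _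
    rw [norm_alg, hωe]
  obtain ⟨r, h1, -, h3⟩ := newt_data hc0 hc hμ hdeg hco f he hf
  have h4 : (μ.map f).eval (algebraMap F ω.comp β) = 0 := by
    rw [← Polynomial.map_map, eval_map, eval₂_hom, eval_map_algebraMap, hβ, map_zero]
  rw [h1, eval_prod, Finset.prod_eq_zero_iff] at h4
  obtain ⟨i, -, h5⟩ := h4
  rw [eval_sub, eval_X, eval_C, sub_eq_zero] at h5
  have h6 : ω.abv (β : F) = ω.abv (algebraMap k F (c i)) ^ 2 := by
    have h7 := h3 i
    rw [← h5, norm_alg] at h7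
    rw [h7]
    change ‖algebraMap F ω.comp (algebraMap k F (c i))‖ ^ 2 = _
    rw [norm_alg]
  have hc' : algebraMap k F (c i) ≠ 0 := (_root_.map_ne_zero _).mpr (hc0 i)
  have h2F : (2 : F) ≠ 0 := by
    rw [← map_ofNat (algebraMap k F) 2]
    exact (_root_.map_ne_zero _).mpr h2
  obtain ⟨x, hx⟩ : ∃ x : Fˣ, x = Units.mk0 _ hc' := ⟨_, rfl⟩
  have hxv : (x : F) = algebraMap k F (c i) := by rw [hx, Units.val_mk0]
  have h8 : ω.abv ((β * (x ^ 2)⁻¹ : Fˣ) : F) = 1 := by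
    have h9 : ω.abv (x : F) ≠ 0 := (ω.abv.pos x.ne_zero).ne'
    rw [Units.val_mul, Units.val_inv_eq_inv_val, Units.val_pow_eq_pow_val, map_mul, map_inv₀,
      map_pow, h6, ← hxv, mul_inv_cancel₀ (pow_ne_zero _ h9)]
  have h10 : ω.abv ((incF k F b : Fˣ) : F) = 1 := by
    change ω.abv (algebraMap k F b) = 1
    rw [hωe, hb, Real.one_rpow]
  have h11 := H961.SF.unit_normF h2F h10 h8
  have h12 : x ^ 2 ∈ LSF ω := ⟨algebraMap F ω.comp x, by
    rw [Units.val_pow_eq_pow_val, map_pow, pow_two]⟩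
  have h13 := Subgroup.mul_mem _ h11 (Subgroup.mem_sup_right h12 :
    x ^ 2 ∈ NF (incF k F b) ⊔ LSF ω)
  rwa [inv_mul_cancel_right] at h13

end Vale.Agent.P011.H872.GF
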