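import Vale.Agent.P011.H487.HermMat

/-!
Diagonalisable maps which anticommute with a given square root of a scalar, and hermitian forms.
-/

open Matrix Module Polynomial

set_option linter.unusedSectionVars false

namespace Vale.Agent.P011.H872.GF

open Vale.Agent.P011.H487

/-- **Orthogonal bases** of hermitian forms. -/
theorem exists_orth {K : Type*} [Field K] [StarRing K] (hK : HForm.StarNT K) (n : ℕ) :
    ∀ (V : Type _) [AddCommGroup V] [Module K V] (h : HForm K V), h.Nondeg →
      FiniteDimensional K V → finrank K V = n →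
      ∃ b : Basis (Fin n) K V, ∀ i j, i ≠ j → h.b (b i) (b j) = 0 := by
  induction n with
  | zero =>
    intro V _ _ h _ _ hV
    exact ⟨finBasisOfFinrankEq K V hV, fun i => i.elim0⟩
  | succ n ih =>
    intro V _ _ h hnd hfd hV
    have hx : ∃ x, h.b x x ≠ 0 := by
      by_contra hcon
      push Not at hcon
      have h1 : ∀ x y, h.b x y + h.b y x = 0 := by
        intro x y
        have h2 := hcon (x + y)
        rw [h.add_left, h.add_right, h.add_right, hcon x, hcon y, zero_add, add_zero] at h2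
        exact h2
      obtain ⟨θ, hθ⟩ := hK
      have h3 : ∀ x y, h.b x y = 0 := by
        intro x y
        have h4 := h1 (θ • x) y
        rw [h.smul_left, h.smul_right] at h4
        have h5 := h1 x y
        have h6 : (θ - star θ) * h.b x y = 0 := by linear_combination h4 - star θ * h5
        rcases mul_eq_zero.mp h6 with h7 | h7
        · exact absurd (sub_eq_zero.mp h7).symm hθ
        · exact h7
      have h8 : Nontrivial V := Module.nontrivial_of_finrank_pos (R := K) (by rw [hV]; omega)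
      obtain ⟨x, hx⟩ := exists_ne (0 : V)
      exact hx (hnd x fun y => h3 y x)
    obtain ⟨x, hx⟩ := hx
    let ℓ : V →ₗ[K] K :=
      { toFun := fun y => h.b y x
        map_add' := fun y z => h.add_left y z x
        map_smul' := fun c y => h.smul_left c y x }
    have hℓ : ∀ y, ℓ y = h.b y x := fun _ => rfl
    have hsurj : Function.Surjective ℓ := by
      intro c
      refine ⟨(c / h.b x x) • x, ?_⟩
      rw [map_smul, hℓ, smul_eq_mul, div_mul_cancel₀ _ hx]
    have hW : finrank K (LinearMap.ker ℓ) = n := by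
      have h1 := ℓ.finrank_range_add_finrank_ker
      rw [LinearMap.range_eq_top.mpr hsurj, finrank_top, finrank_self, hV] at h1
      omega
    let hh : HForm K (LinearMap.ker ℓ) :=
      { b := fun y z => h.b y z
        add_left := fun y z w => h.add_left y z w
        smul_left := fun c y z => h.smul_left c y z
        star_b := fun y z => h.star_b y z }
    have hhb : ∀ y z : LinearMap.ker ℓ, hh.b y z = h.b (y : V) (z : V) := fun _ _ => rfl
    have hker : ∀ y : LinearMap.ker ℓ, h.b (y : V) x = 0 := fun y => y.2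
    have hhnd : hh.Nondeg := by
      intro y hy
      apply Subtype.ext
      refine hnd y fun z => ?_
      obtain ⟨w, hw⟩ : ∃ w, w = z - (ℓ z / h.b x x) • x := ⟨_, rfl⟩
      have hw1 : w ∈ LinearMap.ker ℓ := by
        rw [LinearMap.mem_ker, hw, map_sub, map_smul, hℓ x, smul_eq_mul, div_mul_cancel₀ _ hx,
          sub_self]
      have hz : z = w + (ℓ z / h.b x x) • x := by rw [hw]; abel
      have h1 : h.b w y = 0 := hy ⟨w, hw1⟩
      rw [hz, h.add_left, h.smul_left, h1, h.eq_zero_symm (hker y), mul_zero, add_zero]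
    obtain ⟨b, hb⟩ := ih _ hh hhnd inferInstance hW
    have hli : ∀ (c : K), ∀ y ∈ LinearMap.ker ℓ, c • x + y = 0 → c = 0 := by
      intro c y hy h1
      have h2 := congrArg ℓ h1
      rw [map_add, map_smul, LinearMap.mem_ker.mp hy, map_zero, add_zero, hℓ, smul_eq_mul] at h2
      exact (mul_eq_zero.mp h2).resolve_right hx
    have hsp : ∀ z : V, ∃ c : K, z + c • x ∈ LinearMap.ker ℓ := by
      intro z
      refine ⟨-(ℓ z / h.b x x), ?_⟩
      rw [LinearMap.mem_ker, map_add, map_smul, hℓ x, smul_eq_mul, neg_mul,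
        div_mul_cancel₀ _ hx, add_neg_cancel]
    refine ⟨Basis.mkFinCons x b hli hsp, fun i j hij => ?_⟩
    rw [Basis.coe_mkFinCons]
    induction i using Fin.cases with
    | zero =>
      induction j using Fin.cases with
      | zero => exact absurd rfl hij
      | succ j =>
        rw [Fin.cons_zero, Fin.cons_succ]
        exact h.eq_zero_symm (hker (b j))
    | succ i =>
      induction j using Fin.cases with
      | zero =>
        rw [Fin.cons_zero, Fin.cons_succ]
        exact hker (b i)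
      | succ j =>
        rw [Fin.cons_succ, Fin.cons_succ]
        exact hb i j fun h1 => hij (by rw [h1])

section pair

variable {F V : Type*} [Field F] [AddCommGroup V] [Module F V] {a : F} {T Y0 : V →ₗ[F] V}

/-- The vectors fixed by `Y0`. -/
def E1 (Y0 : V →ₗ[F] V) : Submodule F V := LinearMap.ker (Y0 - LinearMap.id)

theorem mem_E1 {x : V} : x ∈ E1 Y0 ↔ Y0 x = x := by
  rw [E1, LinearMap.mem_ker, LinearMap.sub_apply, LinearMap.id_apply, sub_eq_zero]

variable (h2 : (2 : F) ≠ 0) (ha : a ≠ 0) (hT : ∀ x, T (T x) = a • x) (hY : ∀ x, Y0 (Y0 x) = x)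
  (hYT : ∀ x, Y0 (T x) = -T (Y0 x))
include h2 ha hT hY hYT

/-- The space is the sum of the fixed vectors and of their images by `T`. -/
theorem exists_equiv : ∃ e : (E1 Y0 × E1 Y0) ≃ₗ[F] V, ∀ x y : E1 Y0, e (x, y) = x + T y := by
  let g : (E1 Y0 × E1 Y0) →ₗ[F] V :=
    (E1 Y0).subtype.coprod (T.comp (E1 Y0).subtype)
  have hg : ∀ x y : E1 Y0, g (x, y) = x + T y := fun x y => by
    rw [LinearMap.coprod_apply, LinearMap.comp_apply]
    rfl
  have hbij : Function.Bijective g := ?_
  · exact ⟨LinearEquiv.ofBijective g hbij, fun x y => by rw [LinearEquiv.ofBijective_apply, hg]⟩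
  constructor
  · rw [← LinearMap.ker_eq_bot, Submodule.eq_bot_iff]
    rintro ⟨x, y⟩ hxy
    rw [LinearMap.mem_ker, hg] at hxy
    have h1 := congrArg Y0 hxy
    rw [map_add, hYT, mem_E1.mp x.2, mem_E1.mp y.2, map_zero] at h1
    have h3 : (2 : F) • (x : V) = 0 := by
      rw [two_smul]
      have : (x : V) + x = ((x : V) + T y) + ((x : V) + -T y) := by abel
      rw [this, hxy, h1, add_zero]
    have h4 : (x : V) = 0 := (smul_eq_zero.mp h3).resolve_left h2
    rw [h4, zero_add] at hxy
    have h5 := hT y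
    rw [hxy, map_zero] at h5
    have h6 : (y : V) = 0 := (smul_eq_zero.mp h5.symm).resolve_left ha
    exact Prod.ext (Subtype.ext h4) (Subtype.ext h6)
  · intro v
    have hx : (2 : F)⁻¹ • (v + Y0 v) ∈ E1 Y0 := by
      rw [mem_E1, map_smul, map_add, hY, add_comm]
    have hy : (a⁻¹ * 2⁻¹) • T (v - Y0 v) ∈ E1 Y0 := by
      rw [mem_E1, map_smul, hYT, map_sub, hY, ← map_neg, neg_sub]
    refine ⟨(⟨_, hx⟩, ⟨_, hy⟩), ?_⟩
    rw [hg]
    change (2 : F)⁻¹ • (v + Y0 v) + T ((a⁻¹ * 2⁻¹) • T (v - Y0 v)) = v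
    rw [map_smul, hT, smul_smul, mul_right_comm, inv_mul_cancel₀ ha, one_mul, ← smul_add]
    have : v + Y0 v + (v - Y0 v) = (2 : F) • v := by rw [two_smul]; abel
    rw [this, smul_smul, inv_mul_cancel₀ h2, one_smul]

/-- A basis adapted to `T`. -/
theorem exists_basis {ι : Type*} (b : Basis ι F (E1 Y0)) :
    ∃ P : Basis (ι ⊕ ι) F V, (∀ i, P (.inl i) = b i) ∧ ∀ i, P (.inr i) = T (b i) := by
  obtain ⟨e, he⟩ := exists_equiv h2 ha hT hY hYT
  refine ⟨(b.prod b).map e, fun i => ?_, fun i => ?_⟩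
  · rw [Basis.map_apply, Basis.prod_apply, Sum.elim_inl, Function.comp_apply,
      LinearMap.inl_apply, he]
    simp
  · rw [Basis.map_apply, Basis.prod_apply, Sum.elim_inr, Function.comp_apply,
      LinearMap.inr_apply, he]
    simp

/-- The dimension. -/
theorem finrank_E1 [FiniteDimensional F V] {m : ℕ} (hV : finrank F V = 2 * m) :
    finrank F (E1 Y0) = m := by
  obtain ⟨e, -⟩ := exists_equiv h2 ha hT hY hYT
  have h3 := e.finrank_eq
  rw [finrank_prod, hV] at h3
  omega

end pair

section diag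

variable {F V : Type*} [Field F] [AddCommGroup V] [Module F V] {a : F} {T : V →ₗ[F] V}

/-- The map which is diagonal in an adapted basis. -/
noncomputable def dg {ι : Type*} (P : Basis (ι ⊕ ι) F V) (c : ι → F) : V →ₗ[F] V :=
  P.constr F (Sum.elim (fun i => c i • P (.inl i)) (fun i => (-c i) • P (.inr i)))

theorem dg_inl {ι : Type*} (P : Basis (ι ⊕ ι) F V) (c : ι → F) (i : ι) :
    dg P c (P (.inl i)) = c i • P (.inl i) := by
  rw [dg, Basis.constr_basis, Sum.elim_inl]

theorem dg_inr {ι : Type*} (P : Basis (ι ⊕ ι) F V) (c : ι → F) (i : ι) :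
    dg P c (P (.inr i)) = (-c i) • P (.inr i) := by
  rw [dg, Basis.constr_basis, Sum.elim_inr]

/-- It anticommutes with `T`. -/
theorem dg_anti {ι : Type*} (P : Basis (ι ⊕ ι) F V) (c : ι → F) (hT : ∀ x, T (T x) = a • x)
    (hP : ∀ i, P (.inr i) = T (P (.inl i))) (x : V) : dg P c (T x) = -T (dg P c x) := by
  have h1 : (dg P c).comp T = -(T.comp (dg P c)) := by
    refine P.ext fun i => ?_
    rcases i with i | i
    · rw [LinearMap.comp_apply, LinearMap.neg_apply, LinearMap.comp_apply, dg_inl, ← hP, dg_inr,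
        map_smul, ← hP, neg_smul]
    · rw [LinearMap.comp_apply, LinearMap.neg_apply, LinearMap.comp_apply, dg_inr, map_smul, hP,
        hT, map_smul, dg_inl, neg_smul, neg_neg, smul_comm]
  have h3 := LinearMap.congr_fun h1 x
  rwa [LinearMap.comp_apply, LinearMap.neg_apply, LinearMap.comp_apply] at h3

/-- Its characteristic polynomial. -/
theorem dg_charpoly {ι : Type*} [Fintype ι] [DecidableEq ι] [FiniteDimensional F V]
    (P : Basis (ι ⊕ ι) F V) (c : ι → F) :
    (dg P c).charpoly = ∏ i, (X ^ 2 - C (c i ^ 2)) := by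
  rw [← LinearMap.charpoly_toMatrix (dg P c) P]
  have h1 : LinearMap.toMatrix P P (dg P c) = diagonal (Sum.elim c (fun i => -c i)) := by
    ext i j
    rw [LinearMap.toMatrix_apply]
    rcases j with j | j
    · rw [dg_inl, map_smul, Basis.repr_self, Finsupp.smul_apply, smul_eq_mul]
      rcases i with i | i
      · by_cases hij : i = j
        · rw [hij, diagonal_apply_eq, Finsupp.single_eq_same, mul_one, Sum.elim_inl]
        · rw [diagonal_apply_ne _ (by simpa using hij), Finsupp.single_eq_of_ne (by simpa using hij),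
            mul_zero]
      · rw [diagonal_apply_ne _ (by simp), Finsupp.single_eq_of_ne (by simp), mul_zero]
    · rw [dg_inr, map_smul, Basis.repr_self, Finsupp.smul_apply, smul_eq_mul]
      rcases i with i | i
      · rw [diagonal_apply_ne _ (by simp), Finsupp.single_eq_of_ne (by simp), mul_zero]
      · by_cases hij : i = j
        · rw [hij, diagonal_apply_eq, Finsupp.single_eq_same, mul_one, Sum.elim_inr]
        · rw [diagonal_apply_ne _ (by simpa using hij), Finsupp.single_eq_of_ne (by simpa using hij),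
            mul_zero]
  rw [h1, charpoly_diagonal, Fintype.prod_sum_type, ← Finset.prod_mul_distrib]
  refine Finset.prod_congr rfl fun i _ => ?_
  rw [Sum.elim_inl, Sum.elim_inr, C_neg, C_pow]
  ring

end diag

section herm

variable {K V : Type*} [Field K] [StarRing K] [AddCommGroup V] [Module K V]
  {a : K} {T Y0 : V →ₗ[K] V}

/-- A map is antisymmetric if it is so on a basis. -/
theorem skew_of_basis (h : HForm K V) {ι : Type*} (P : Basis ι K V) (Y : V →ₗ[K] V)
    (hP : ∀ i j, h.b (Y (P i)) (P j) = -h.b (P i) (Y (P j))) (x y : V) :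
    h.b (Y x) y = -h.b x (Y y) := by
  have h1 : ∀ j x, h.b (Y x) (P j) = -h.b x (Y (P j)) := by
    intro j x
    let f : V →ₗ[K] K :=
      { toFun := fun x => h.b (Y x) (P j) + h.b x (Y (P j))
        map_add' := fun x y => by
          rw [map_add, h.add_left, h.add_left]
          ring
        map_smul' := fun c x => by
          rw [map_smul, h.smul_left, h.smul_left, RingHom.id_apply, smul_eq_mul]
          ring }
    have hf : f = 0 := P.ext fun i => by
      change h.b (Y (P i)) (P j) + h.b (P i) (Y (P j)) = 0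
      rw [hP, neg_add_cancel]
    exact eq_neg_of_add_eq_zero_left (LinearMap.congr_fun hf x)
  let f : V →ₗ[K] K :=
    { toFun := fun y => h.b y (Y x) + h.b (Y y) x
      map_add' := fun y z => by
        rw [map_add, h.add_left, h.add_left]
        ring
      map_smul' := fun c y => by
        rw [map_smul, h.smul_left, h.smul_left, RingHom.id_apply, smul_eq_mul]
        ring }
  have hf : f = 0 := P.ext fun j => by
    change h.b (P j) (Y x) + h.b (Y (P j)) x = 0
    rw [← h.star_b (Y x), h1 j x, star_neg, h.star_b, neg_add_cancel]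
  have h2 : h.b y (Y x) + h.b (Y y) x = 0 := LinearMap.congr_fun hf y
  rw [← h.star_b y (Y x), eq_neg_of_add_eq_zero_left h2, star_neg, h.star_b]

/-- **The antisymmetric map**, in an orthogonal adapted basis. -/
theorem exists_skew [FiniteDimensional K V] (hK : HForm.StarNT K) (h2 : (2 : K) ≠ 0)
    (h : HForm K V) (hnd : h.Nondeg) (ha : a ≠ 0) (hT : ∀ x, T (T x) = a • x)
    (hTs : ∀ x y, h.b (T x) y = h.b x (T y)) (hY : ∀ x, Y0 (Y0 x) = x)
    (hYT : ∀ x, Y0 (T x) = -T (Y0 x)) (hYs : ∀ x y, h.b (Y0 x) y = -h.b x (Y0 y)) {m : ℕ}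
    (hV : finrank K V = 2 * m) (c : Fin m → K) (hc : ∀ i, star (c i) = c i) :
    ∃ Y : V →ₗ[K] V, (∀ x, Y (T x) = -T (Y x)) ∧ (∀ x y, h.b (Y x) y = -h.b x (Y y)) ∧
      Y.charpoly = ∏ i, (X ^ 2 - C (c i ^ 2)) := by
  -- the fixed vectors are isotropic
  have hiso : ∀ x y : E1 Y0, h.b (x : V) y = 0 := by
    intro x y
    have h1 := hYs x y
    rw [mem_E1.mp x.2, mem_E1.mp y.2] at h1
    have h3 : (2 : K) * h.b (x : V) y = 0 := by linear_combination h1
    exact (mul_eq_zero.mp h3).resolve_left h2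
  let hh : HForm K (E1 Y0) :=
    { b := fun x y => h.b x (T y)
      add_left := fun x y z => h.add_left x y (T z)
      smul_left := fun c x y => h.smul_left c x (T y)
      star_b := fun x y => by rw [h.star_b, hTs] }
  have hhb : ∀ x y : E1 Y0, hh.b x y = h.b (x : V) (T y) := fun _ _ => rfl
  obtain ⟨e, he⟩ := exists_equiv h2 ha hT hY hYT
  have hhnd : hh.Nondeg := by
    intro x hx
    apply Subtype.ext
    have h1 : T (x : V) = 0 := by
      refine hnd _ fun z => ?_
      obtain ⟨⟨y, w⟩, rfl⟩ := e.surjective z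
      have h3 : h.b (y : V) (T x) = 0 := hx y
      rw [he, h.add_left, h3, zero_add, hTs, hT, h.smul_right, hiso, mul_zero]
    have h3 := hT x
    rw [h1, map_zero] at h3
    exact (smul_eq_zero.mp h3.symm).resolve_left ha
  obtain ⟨b, hb⟩ := exists_orth hK m (E1 Y0) hh hhnd inferInstance
    (finrank_E1 h2 ha hT hY hYT hV)
  obtain ⟨P, hP1, hP2⟩ := exists_basis h2 ha hT hY hYT b
  have hP : ∀ i, P (.inr i) = T (P (.inl i)) := fun i => by rw [hP2, hP1]
  have q1 : ∀ i j, h.b (P (.inl i)) (P (.inl j)) = 0 := fun i j => by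
    rw [hP1, hP1]
    exact hiso _ _
  have q2 : ∀ i j, h.b (P (.inr i)) (P (.inr j)) = 0 := fun i j => by
    rw [hP2, hP2, hTs, hT, h.smul_right, hiso, mul_zero]
  have q3 : ∀ i j, i ≠ j → h.b (P (.inl i)) (P (.inr j)) = 0 := fun i j hij => by
    rw [hP1, hP2]
    exact hb i j hij
  have q4 : ∀ i j, i ≠ j → h.b (P (.inr i)) (P (.inl j)) = 0 := fun i j hij =>
    h.eq_zero_symm (q3 j i (Ne.symm hij))
  refine ⟨dg P c, dg_anti P c hT hP, skew_of_basis h P _ ?_, dg_charpoly P c⟩
  intro i j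
  rcases i with i | i <;> rcases j with j | j
  · rw [dg_inl, dg_inl, h.smul_left, h.smul_right, q1, mul_zero, mul_zero, neg_zero]
  · rw [dg_inl, dg_inr, h.smul_left, h.smul_right]
    by_cases hij : i = j
    · rw [hij, star_neg, hc]
      ring
    · rw [q3 i j hij, mul_zero, mul_zero, neg_zero]
  · rw [dg_inl, dg_inr, h.smul_left, h.smul_right]
    by_cases hij : i = j
    · rw [hij, hc]
      ring
    · rw [q4 i j hij, mul_zero, mul_zero, neg_zero]
  · rw [dg_inr, dg_inr, h.smul_left, h.smul_right, q2, mul_zero, mul_zero, neg_zero]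

end herm

section mat

variable {F : Type*} [Field F] {n m : ℕ}

theorem toLin_mul (A A' : Matrix (Fin n) (Fin n) F) (x : Fin n → F) :
    Matrix.toLin' (A * A') x = Matrix.toLin' A (Matrix.toLin' A' x) := by
  rw [Matrix.toLin'_mul, LinearMap.comp_apply]

theorem mat_anti {T : Matrix (Fin n) (Fin n) F} {Y : (Fin n → F) →ₗ[F] (Fin n → F)}
    (h : ∀ x, Y (Matrix.toLin' T x) = -Matrix.toLin' T (Y x)) :
    LinearMap.toMatrix' Y * T = -(T * LinearMap.toMatrix' Y) := by
  apply Matrix.toLin'.injective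
  refine LinearMap.ext fun x => ?_
  rw [toLin_mul, map_neg, LinearMap.neg_apply, toLin_mul, Matrix.toLin'_toMatrix', h]

/-- **Matrix form, without hermitian form.** -/
theorem exists_mat (h2 : (2 : F) ≠ 0) {a : F} (ha : a ≠ 0) (hn : n = 2 * m)
    {T Y0 : Matrix (Fin n) (Fin n) F} (hT : T * T = a • 1) (hY : Y0 * Y0 = 1)
    (hYT : Y0 * T = -(T * Y0)) (c : Fin m → F) :
    ∃ Y : Matrix (Fin n) (Fin n) F, Y * T = -(T * Y) ∧
      Y.charpoly = ∏ i, (X ^ 2 - C (c i ^ 2)) := by
  have q1 : ∀ x, Matrix.toLin' T (Matrix.toLin' T x) = a • x := fun x => by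
    rw [← toLin_mul, hT, map_smul, LinearMap.smul_apply, Matrix.toLin'_one, LinearMap.id_apply]
  have q2 : ∀ x, Matrix.toLin' Y0 (Matrix.toLin' Y0 x) = x := fun x => by
    rw [← toLin_mul, hY, Matrix.toLin'_one, LinearMap.id_apply]
  have q3 : ∀ x, Matrix.toLin' Y0 (Matrix.toLin' T x) = -Matrix.toLin' T (Matrix.toLin' Y0 x) :=
    fun x => by rw [← toLin_mul, hYT, map_neg, LinearMap.neg_apply, toLin_mul]
  have hfr : finrank F (E1 (Matrix.toLin' Y0)) = m :=
    finrank_E1 h2 ha q1 q2 q3 (by rw [finrank_fin_fun, hn])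
  obtain ⟨P, hP1, hP2⟩ := exists_basis h2 ha q1 q2 q3
    (finBasisOfFinrankEq F (E1 (Matrix.toLin' Y0)) hfr)
  have hP : ∀ i, P (.inr i) = Matrix.toLin' T (P (.inl i)) := fun i => by rw [hP2, hP1]
  refine ⟨LinearMap.toMatrix' (dg P c), ?_, ?_⟩
  · exact mat_anti (dg_anti P c q1 hP)
  · rw [← LinearMap.toMatrix_eq_toMatrix', LinearMap.charpoly_toMatrix, dg_charpoly]

end mat

section matherm

variable {F : Type*} [Field F] [StarRing F] {n m : ℕ}

/-- The adjoint. -/
theorem adj_iff {H : Matrix (Fin n) (Fin n) F} (hdet : H.det ≠ 0) (hJ : (H⁻¹)ᴴ = H⁻¹)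
    (A : Matrix (Fin n) (Fin n) F) (ε : F) :
    (∀ x y, (colForm H⁻¹ hJ).b (Matrix.toLin' A x) y =
      ε * (colForm H⁻¹ hJ).b x (Matrix.toLin' A y)) ↔ A * H = ε • (H * Aᴴ) := by
  have hu : IsUnit H.det := isUnit_iff_ne_zero.2 hdet
  have h1 : A * H = ε • (H * Aᴴ) ↔ H⁻¹ * A = ε • (Aᴴ * H⁻¹) := by
    constructor
    · intro h
      calc H⁻¹ * A = H⁻¹ * (A * H) * H⁻¹ := by
            rw [mul_assoc, mul_assoc, mul_nonsing_inv _ hu, mul_one]
        _ = ε • (Aᴴ * H⁻¹) := by
            rw [h, mul_smul_comm, smul_mul_assoc, ← mul_assoc, nonsing_inv_mul _ hu, one_mul]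
    · intro h
      calc A * H = H * (H⁻¹ * A) * H := by
            rw [← mul_assoc, mul_nonsing_inv _ hu, one_mul]
        _ = ε • (H * Aᴴ) := by
            rw [h, mul_smul_comm, smul_mul_assoc, mul_assoc, mul_assoc, nonsing_inv_mul _ hu,
              mul_one]
  have h3 : ∀ x y, (colForm H⁻¹ hJ).b (Matrix.toLin' A x) y = star y ⬝ᵥ ((H⁻¹ * A) *ᵥ x) := by
    intro x y
    rw [colForm_b, Matrix.toLin'_apply, mulVec_mulVec]
  have h4 : ∀ x y, ε * (colForm H⁻¹ hJ).b x (Matrix.toLin' A y) =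
      star y ⬝ᵥ ((ε • (Aᴴ * H⁻¹)) *ᵥ x) := by
    intro x y
    rw [colForm_b, Matrix.toLin'_apply, star_mulVec, ← dotProduct_mulVec, mulVec_mulVec,
      smul_mulVec, dotProduct_smul, smul_eq_mul]
  rw [h1]
  constructor
  · intro h
    ext i j
    have h5 := h (Pi.single j 1) (Pi.single i 1)
    rw [h3, h4] at h5
    simpa using h5
  · intro h x y
    rw [h3, h4, h]

/-- **Matrix form, with a hermitian form.** -/
theorem exists_mat_herm (hK : HForm.StarNT F) (h2 : (2 : F) ≠ 0) {a : F} (ha : a ≠ 0)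
    (hn : n = 2 * m) {H T Y0 : Matrix (Fin n) (Fin n) F} (hH : Hᴴ = H) (hdet : H.det ≠ 0)
    (hT : T * T = a • 1) (hTH : T * H = H * Tᴴ) (hY : Y0 * Y0 = 1)
    (hYT : Y0 * T = -(T * Y0)) (hYH : Y0 * H = -(H * Y0ᴴ)) (c : Fin m → F)
    (hc : ∀ i, star (c i) = c i) :
    ∃ Y : Matrix (Fin n) (Fin n) F, Y * T = -(T * Y) ∧ Y * H = -(H * Yᴴ) ∧
      Y.charpoly = ∏ i, (X ^ 2 - C (c i ^ 2)) := by
  have hJ := isHerm_inv hH
  have q1 : ∀ x, Matrix.toLin' T (Matrix.toLin' T x) = a • x := fun x => by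
    rw [← toLin_mul, hT, map_smul, LinearMap.smul_apply, Matrix.toLin'_one, LinearMap.id_apply]
  have q2 : ∀ x, Matrix.toLin' Y0 (Matrix.toLin' Y0 x) = x := fun x => by
    rw [← toLin_mul, hY, Matrix.toLin'_one, LinearMap.id_apply]
  have q3 : ∀ x, Matrix.toLin' Y0 (Matrix.toLin' T x) = -Matrix.toLin' T (Matrix.toLin' Y0 x) :=
    fun x => by rw [← toLin_mul, hYT, map_neg, LinearMap.neg_apply, toLin_mul]
  have q4 := (adj_iff hdet hJ T 1).mpr (by rw [one_smul, hTH])
  have q5 := (adj_iff hdet hJ Y0 (-1)).mpr (by rw [neg_one_smul, hYH])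
  obtain ⟨Y, hY1, hY2, hY3⟩ := exists_skew hK h2 (colForm H⁻¹ hJ) (colForm_nondeg hdet hJ) ha q1
    (fun x y => by rw [q4, one_mul]) q2 q3 (fun x y => by rw [q5, neg_one_mul])
    (by rw [finrank_fin_fun, hn]) c hc
  refine ⟨LinearMap.toMatrix' Y, mat_anti hY1, ?_, ?_⟩
  · rw [← neg_one_smul F (H * _)]
    refine (adj_iff hdet hJ _ (-1)).mp fun x y => ?_
    rw [Matrix.toLin'_toMatrix', hY2, neg_one_mul]
  · rw [← LinearMap.toMatrix_eq_toMatrix', LinearMap.charpoly_toMatrix, hY3]

end matherm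

end Vale.Agent.P011.H872.GF
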