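import Vale.Agent.P011.H519.SpanCSA
import Vale.Agent.P011.H872.GF.NewtC

/-!
The minimal polynomial of the square of an element which anticommutes with a square root of a
scalar, read off a splitting.
-/

open Matrix Module Polynomial

set_option linter.unusedSectionVars false

namespace Vale.Agent.P011.H872.GF

section even

variable {F : Type*} [Field F] {n : ℕ}

theorem charpoly_comp_neg (A : Matrix (Fin n) (Fin n) F) :
    A.charpoly.comp (-X) = (-1) ^ n * (-A).charpoly := by
  have h1 : (compRingHom (-X : F[X])).mapMatrix (charmatrix A) = -charmatrix (-A) := by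
    ext1 i j
    rw [RingHom.mapMatrix_apply, Matrix.map_apply, Matrix.neg_apply, charmatrix_apply,
      charmatrix_apply, map_sub, coe_compRingHom_apply, coe_compRingHom_apply, C_comp,
      Matrix.neg_apply, C_neg]
    by_cases hij : i = j
    · rw [hij, diagonal_apply_eq, X_comp]
      ring
    · rw [diagonal_apply_ne _ hij, zero_comp]
      ring
  have h2 := congrArg Matrix.det h1
  rw [← RingHom.map_det, Matrix.det_neg, Fintype.card_fin, coe_compRingHom_apply] at h2
  exact h2

/-- **The characteristic polynomial is even.** -/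
theorem charpoly_even (h2 : (2 : F) ≠ 0) {m : ℕ} (hn : n = 2 * m) {A T : Matrix (Fin n) (Fin n) F}
    {a : F} (ha : a ≠ 0) (hT : T * T = a • 1) (hAT : A * T = -(T * A)) :
    A.charpoly = expand F 2 (contract 2 A.charpoly) := by
  have hT1 : T * (a⁻¹ • T) = 1 := by
    rw [mul_smul_comm, hT, smul_smul, inv_mul_cancel₀ ha, one_smul]
  have hT2 : (a⁻¹ • T) * T = 1 := by
    rw [smul_mul_assoc, hT, smul_smul, inv_mul_cancel₀ ha, one_smul]
  have h1 : (-A).charpoly = A.charpoly := by
    have h3 := charpoly_units_conj (⟨T, a⁻¹ • T, hT1, hT2⟩ : (Matrix (Fin n) (Fin n) F)ˣ) A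
    have h4 : T * A * (a⁻¹ • T) = -A := by
      have h5 : T * A = -(A * T) := by rw [hAT, neg_neg]
      rw [h5, neg_mul, mul_assoc, hT1, mul_one]
    change (T * A * T⁻¹).charpoly = _ at h3
    rwa [Matrix.inv_eq_right_inv hT1, h4] at h3
  have h3 := charpoly_comp_neg A
  have hpow : (-1 : F[X]) ^ n = 1 := by rw [hn, pow_mul, neg_one_sq, one_pow]
  rw [h1, hpow, one_mul] at h3
  have h4 : (-X : F[X]) = C (-1) * X := by rw [C_neg, C_1, neg_one_mul]
  ext i
  rw [coeff_expand two_pos]
  split_ifs with hi
  · rw [coeff_contract two_ne_zero, Nat.div_mul_cancel hi]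
  · have h5 := congrArg (fun p => p.coeff i) h3
    rw [h4] at h5
    change (A.charpoly.comp (C (-1) * X)).coeff i = A.charpoly.coeff i at h5
    rw [comp_C_mul_X_coeff, Odd.neg_one_pow (Nat.not_even_iff_odd.mp fun h => hi h.two_dvd)] at h5
    have h6 : (2 : F) * A.charpoly.coeff i = 0 := by linear_combination (-1 : F) * h5
    exact (mul_eq_zero.mp h6).resolve_left h2

theorem contract_monic {m : ℕ} (hn : n = 2 * m) {A : Matrix (Fin n) (Fin n) F}
    (h : A.charpoly = expand F 2 (contract 2 A.charpoly)) :
    (contract 2 A.charpoly).Monic ∧ (contract 2 A.charpoly).natDegree = m := by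
  have h1 := A.charpoly_monic
  have h2 := A.charpoly_natDegree_eq_dim
  rw [Fintype.card_fin] at h2
  obtain ⟨R, hR⟩ : ∃ R, R = contract 2 A.charpoly := ⟨_, rfl⟩
  rw [← hR] at h ⊢
  refine ⟨?_, ?_⟩
  · rw [h] at h1
    exact (monic_expand_iff two_pos).mp h1
  · rw [h, natDegree_expand] at h2
    omega

/-- The roots are roots of every polynomial which vanishes at the square. -/
theorem root_of_root {A : Matrix (Fin n) (Fin n) F} {R : F[X]} (hR : A.charpoly = expand F 2 R)
    {μ : F[X]} (hμ : aeval (A * A) μ = 0) {r : F} (hr : R.eval r = 0) : μ.eval r = 0 := by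
  let Fc := AlgebraicClosure F
  obtain ⟨x, hx⟩ := IsAlgClosed.exists_pow_nat_eq (algebraMap F Fc r) two_pos
  obtain ⟨A', hA'⟩ : ∃ A' : Matrix (Fin n) (Fin n) Fc, A' = (algebraMap F Fc).mapMatrix A := ⟨_, rfl⟩
  have h1 : (Matrix.scalar (Fin n) x - A').det = 0 := by
    rw [← Matrix.eval_charpoly, hA', RingHom.mapMatrix_apply, Matrix.charpoly_map, hR, eval_map,
      ← aeval_def, expand_aeval, hx, aeval_algebraMap_apply, coe_aeval_eq_eval, hr, map_zero]
  obtain ⟨w, hw0, hw⟩ := Matrix.exists_mulVec_eq_zero_iff.mpr h1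
  have hw1 : A' *ᵥ w = x • w := by
    rw [sub_mulVec] at hw
    rw [← sub_eq_zero.mp hw]
    simp [Matrix.scalar_apply]
  have hw2 : (A' * A') *ᵥ w = (algebraMap F Fc r) • w := by
    rw [← mulVec_mulVec, hw1, mulVec_smul, hw1, smul_smul, ← pow_two, hx]
  have h3 : ∀ p : Fc[X], (aeval (A' * A') p) *ᵥ w = p.eval (algebraMap F Fc r) • w := by
    intro p
    induction p using Polynomial.induction_on' with
    | add p q hp hq => rw [map_add, add_mulVec, hp, hq, eval_add, add_smul]
    | monomial i c =>
      rw [aeval_monomial, eval_monomial, ← Algebra.smul_def, smul_mulVec, mul_smul]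
      congr 1
      induction i with
      | zero => rw [pow_zero, pow_zero, one_mulVec, one_smul]
      | succ i ih =>
        rw [pow_succ, ← mulVec_mulVec, hw2, mulVec_smul, ih, smul_smul, pow_succ, mul_comm]
  have h4 := h3 (μ.map (algebraMap F Fc))
  have h5 : aeval (A' * A') (μ.map (algebraMap F Fc)) = 0 := by
    rw [hA', ← map_mul]
    have h6 : ∀ M : Matrix (Fin n) (Fin n) F, aeval ((algebraMap F Fc).mapMatrix M)
        (μ.map (algebraMap F Fc)) = (algebraMap F Fc).mapMatrix (aeval M μ) := by
      intro M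
      rw [aeval_map_algebraMap]
      exact (Polynomial.aeval_algHom_apply (Algebra.ofId F Fc).mapMatrix M μ)
    rw [h6, hμ, map_zero]
  rw [h5, zero_mulVec, eval_map, ← aeval_def, aeval_algebraMap_apply, coe_aeval_eq_eval] at h4
  rcases smul_eq_zero.mp h4.symm with h7 | h7
  · exact (_root_.map_eq_zero _).mp h7
  · exact absurd h7 hw0

end even

section main

variable {k K D : Type} [Field k] [Field K] [StarRing K] [DivisionRing D] [StarRing D]
  [Algebra k K] [Algebra k D] [Algebra K D] [IsScalarTower k K D]

/-- The minimal polynomial over `k` of a symmetric element. -/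
theorem natDegree_sym (hfix : ∀ x : K, star x = x ↔ x ∈ Set.range (algebraMap k K))
    (hst : ∀ (x : K) (y : D), star (x • y) = star x • star y) [FiniteDimensional K D] {z : D}
    (hz : star z = z) : (minpoly k z).natDegree ≤ (minpoly K z).natDegree := by
  have hzK : IsIntegral K z := IsIntegral.of_finite K z
  have hq := minpoly.monic hzK
  -- the conjugate polynomial
  have h1 : ∀ p : K[X], aeval z (p.map (starRingEnd K)) = star (aeval z p) := by
    intro p
    induction p using Polynomial.induction_on' with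
    | add p q hp hq => rw [Polynomial.map_add, map_add, hp, hq, map_add, star_add]
    | monomial i c =>
      rw [map_monomial, aeval_monomial, aeval_monomial, star_mul, star_pow, hz,
        Algebra.algebraMap_eq_smul_one, Algebra.algebraMap_eq_smul_one, hst, star_one,
        starRingEnd_apply, smul_mul_assoc, one_mul, mul_smul_comm, mul_one]
  have h2 : (minpoly K z).map (starRingEnd K) = minpoly K z := by
    refine minpoly.unique K z (hq.map _) ?_ fun p hp hpz => ?_
    · rw [h1, minpoly.aeval, star_zero]
    · rw [degree_map_eq_of_injective (starRingEnd K).injective]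
      exact minpoly.min K z hp hpz
  obtain ⟨q0, hq0⟩ : ∃ q0 : k[X], q0.map (algebraMap k K) = minpoly K z := by
    have h3 : minpoly K z ∈ Polynomial.lifts (algebraMap k K) := by
      rw [Polynomial.lifts_iff_coeff_lifts]
      intro i
      rw [← hfix]
      have h4 := congrArg (fun p => p.coeff i) h2
      change ((minpoly K z).map (starRingEnd K)).coeff i = _ at h4
      rw [coeff_map, starRingEnd_apply] at h4
      exact h4
    exact (Polynomial.mem_lifts _).mp h3
  have h3 : aeval z q0 = 0 := by
    have h4 := minpoly.aeval K z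
    rw [← hq0, aeval_map_algebraMap] at h4
    exact h4
  have h4 : q0 ≠ 0 := by
    rintro rfl
    rw [Polynomial.map_zero] at hq0
    exact hq.ne_zero hq0.symm
  calc (minpoly k z).natDegree ≤ q0.natDegree := natDegree_le_of_dvd (minpoly.dvd k z h3) h4
    _ = (minpoly K z).natDegree := by rw [← hq0, natDegree_map]

/-- **The minimal polynomial of the square**, from a splitting in which the characteristic
polynomial satisfies the strict Newton condition. -/
theorem minpoly_of_newton (hfix : ∀ x : K, star x = x ↔ x ∈ Set.range (algebraMap k K))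
    (hst : ∀ (x : K) (y : D), star (x • y) = star x • star y) [FiniteDimensional K D]
    [FiniteDimensional k D] [Algebra.IsCentral K D] {L : Type*} [NormedField L] [IsUltrametricDist L] [CompleteSpace L]
    (h2 : (2 : L) ≠ 0) {n m : ℕ} (hm : 0 < m) (hn : n = 2 * m) {φ : K →+* L}
    {g : D →+* Matrix (Fin n) (Fin n) L} (hg : ∀ c : K, g (algebraMap K D c) = algebraMap L _ (φ c))
    {t j : D} {a : k} (ha : a ≠ 0) (ht : t * t = algebraMap k D a) (hj : star j = -j)
    (hjt : j * t = -(t * j))
    (h0 : (g j).charpoly.coeff 0 ≠ 0)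
    (hc : ∀ i, 0 < i → i < m → ‖(g j).charpoly.coeff (2 * (i - 1))‖ *
      ‖(g j).charpoly.coeff (2 * (i + 1))‖ < ‖(g j).charpoly.coeff (2 * i)‖ ^ 2) :
    (minpoly k (j * j)).natDegree = m ∧ ∀ i,
      φ (algebraMap k K ((minpoly k (j * j)).coeff i)) = (g j).charpoly.coeff (2 * i) := by
  have hn0 : NeZero n := ⟨by omega⟩
  have hgk : ∀ c : k, g (algebraMap k D c) = algebraMap L _ (φ (algebraMap k K c)) := fun c => by
    rw [IsScalarTower.algebraMap_apply k K D, hg]
  have hT : g t * g t = (φ (algebraMap k K a)) • 1 := by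
    rw [← map_mul, ht, hgk, Algebra.algebraMap_eq_smul_one]
  have ha' : φ (algebraMap k K a) ≠ 0 := by
    rw [Ne, _root_.map_eq_zero, _root_.map_eq_zero]
    exact ha
  have hev := charpoly_even h2 hn ha' hT (A := g j) (by rw [← map_mul, hjt, map_neg, map_mul])
  obtain ⟨hRm, hRd⟩ := contract_monic hn hev
  obtain ⟨R, hR⟩ : ∃ R, R = contract 2 (g j).charpoly := ⟨_, rfl⟩
  have hRc : ∀ i, R.coeff i = (g j).charpoly.coeff (2 * i) := fun i => by
    rw [hR, coeff_contract two_ne_zero, mul_comm]
  rw [← hR] at hev hRm hRd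
  obtain ⟨r, -, hr, hRr⟩ := newt_norm hRm hRd (by rw [hRc]; exact h0) fun i hi hi' => by
    rw [hRc, hRc, hRc]
    exact hc i hi hi'
  -- the degree over `K`
  obtain ⟨z, hz⟩ : ∃ z, z = j * j := ⟨_, rfl⟩
  rw [← hz]
  have hzs : star z = z := by rw [hz, star_mul, hj, neg_mul_neg]
  have hgz : g z = g j * g j := by rw [hz, map_mul]
  have hR0 : aeval (g z) R = 0 := by
    have h3 := Matrix.aeval_self_charpoly (g j)
    rw [hev, expand_aeval, pow_two] at h3
    rwa [hgz]
  have hdK : (minpoly K z).natDegree ≤ m := by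
    by_contra hcon
    rw [not_le] at hcon
    have h3 : LinearIndependent K fun i : Fin (minpoly K z).natDegree => z ^ (i : ℕ) :=
      linearIndependent_pow z
    have h4 := H519.linearIndependent_map φ g hg h3
    have h5 := h4.comp (fun i : Fin (m + 1) => (⟨i, by omega⟩ : Fin (minpoly K z).natDegree))
      (fun i i' h => Fin.ext (by simpa using congrArg Fin.val h))
    rw [Fintype.linearIndependent_iff] at h5
    have h6 := h5 (fun i => R.coeff i) (by
      have h7 := hR0
      rw [aeval_eq_sum_range' (n := m + 1) (by omega), ← Fin.sum_univ_eq_sum_range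
        (fun i => R.coeff i • (g z) ^ i)] at h7
      rw [← h7]
      refine Finset.sum_congr rfl fun i _ => ?_
      rw [Function.comp_apply, map_pow]) (Fin.last m)
    change R.coeff m = 0 at h6
    rw [← hRd, hRm.coeff_natDegree] at h6
    exact one_ne_zero h6
  have hdk : (minpoly k z).natDegree ≤ m := (natDegree_sym hfix hst hzs).trans hdK
  -- the polynomial over `L`
  have hzk : IsIntegral k z := IsIntegral.of_finite k z
  obtain ⟨ψ, hψ⟩ : ∃ ψ : k →+* L, ψ = φ.comp (algebraMap k K) := ⟨_, rfl⟩
  obtain ⟨μ, hμ⟩ : ∃ μ : L[X], μ = (minpoly k z).map ψ := ⟨_, rfl⟩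
  have hμm : μ.Monic := by rw [hμ]; exact (minpoly.monic hzk).map _
  have hμd : μ.natDegree ≤ m := by rw [hμ, natDegree_map]; exact hdk
  have hμ0 : aeval (g j * g j) μ = 0 := by
    rw [← hgz, hμ]
    have h3 : ∀ p : k[X], aeval (g z) (p.map ψ) = g (aeval z p) := by
      intro p
      induction p using Polynomial.induction_on' with
      | add p q hp hq => rw [Polynomial.map_add, map_add, hp, hq, map_add, map_add]
      | monomial i c =>
        rw [map_monomial, aeval_monomial, aeval_monomial, map_mul, map_pow, hgk, hψ,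
          RingHom.comp_apply]
    rw [h3, minpoly.aeval, map_zero]
  have hinj : Function.Injective r := by
    intro i i' h
    rcases lt_trichotomy i i' with h3 | h3 | h3
    · exact absurd (hr i i' h3) (by rw [h]; exact lt_irrefl _)
    · exact h3
    · exact absurd (hr i' i h3) (by rw [h]; exact lt_irrefl _)
  have hdvd : R ∣ μ := by
    rw [hRr]
    refine Finset.prod_dvd_of_coprime (fun i _ i' _ hii => ?_) fun i _ => ?_
    · exact pairwise_coprime_X_sub_C hinj hii
    · rw [dvd_iff_isRoot]
      refine root_of_root hev hμ0 ?_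
      rw [hRr, eval_prod]
      exact Finset.prod_eq_zero (Finset.mem_univ i) (by rw [eval_sub, eval_X, eval_C, sub_self])
  have hμR : μ = R := (eq_of_monic_of_dvd_of_natDegree_le hRm hμm hdvd (by rw [hRd]; exact hμd))
  refine ⟨?_, fun i => ?_⟩
  · have h3 := hRd
    rw [← hμR, hμ, natDegree_map] at h3
    exact h3
  · rw [← hRc, ← hμR, hμ, coeff_map, hψ, RingHom.comp_apply]

end main

end Vale.Agent.P011.H872.GF
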