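import Mathlib

/-!
Matrices with square close to one over a complete nonarchimedean field: the iteration
`Y ↦ Y (3 - Y ^ 2) / 2` converges to a square root of one.
-/

open Matrix Filter Topology

set_option linter.unusedSectionVars false

namespace Vale.Agent.P011.H872.GF

variable {L : Type*} [NontriviallyNormedField L] [IsUltrametricDist L] {n : ℕ}

/-- All entries are at most `c`. -/
def Bnd (c : ℝ) (A : Matrix (Fin n) (Fin n) L) : Prop := ∀ i j, ‖A i j‖ ≤ c

theorem Bnd.mono {c c' : ℝ} {A : Matrix (Fin n) (Fin n) L} (h : Bnd c A) (hc : c ≤ c') :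
    Bnd c' A := fun i j => (h i j).trans hc

theorem Bnd.mul {c c' : ℝ} (hc : 0 ≤ c) (hc' : 0 ≤ c') {A A' : Matrix (Fin n) (Fin n) L}
    (h : Bnd c A) (h' : Bnd c' A') : Bnd (c * c') (A * A') := by
  intro i j
  rw [Matrix.mul_apply]
  refine IsUltrametricDist.norm_sum_le_of_forall_le_of_nonneg (mul_nonneg hc hc') fun l _ => ?_
  rw [norm_mul]
  exact mul_le_mul (h i l) (h' l j) (norm_nonneg _) hc

theorem Bnd.add {c : ℝ} {A A' : Matrix (Fin n) (Fin n) L} (h : Bnd c A) (h' : Bnd c A') :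
    Bnd c (A + A') := by
  intro i j
  rw [Matrix.add_apply]
  exact (IsUltrametricDist.norm_add_le_max _ _).trans (max_le (h i j) (h' i j))

theorem Bnd.smul {c : ℝ} {A : Matrix (Fin n) (Fin n) L} (h : Bnd c A) {a : L} (ha : ‖a‖ ≤ 1) :
    Bnd c (a • A) := by
  intro i j
  rw [Matrix.smul_apply, smul_eq_mul, norm_mul]
  exact (mul_le_mul ha (h i j) (norm_nonneg _) zero_le_one).trans (by rw [one_mul])

theorem Bnd.neg {c : ℝ} {A : Matrix (Fin n) (Fin n) L} (h : Bnd c A) : Bnd c (-A) := by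
  intro i j
  rw [Matrix.neg_apply, norm_neg]
  exact h i j

theorem Bnd.one : Bnd 1 (1 : Matrix (Fin n) (Fin n) L) := by
  intro i j
  rw [Matrix.one_apply]
  split_ifs
  · rw [norm_one]
  · rw [norm_zero]
    exact zero_le_one

/-- The step of the iteration. -/
def stp (h : L) (Y : Matrix (Fin n) (Fin n) L) : Matrix (Fin n) (Fin n) L :=
  Y * (1 - h • (Y * Y - 1))

theorem stp_err {h : L} (hh : 2 * h = 1) (Y : Matrix (Fin n) (Fin n) L) :
    stp h Y * stp h Y - 1 =
      (Y * Y - 1) * (Y * Y - 1) * (-(3 * h ^ 2) • 1 + h ^ 2 • (Y * Y - 1)) := by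
  obtain ⟨E, hE⟩ : ∃ E, E = Y * Y - 1 := ⟨_, rfl⟩
  have hY : Y * Y = 1 + E := by rw [hE]; abel
  have hc : Commute Y E := by
    rw [hE]
    exact ((Commute.refl Y).mul_right (Commute.refl Y)).sub_right (Commute.one_right Y)
  have hc' : Commute Y (1 - h • E) := (Commute.one_right Y).sub_right (hc.smul_right h)
  have e1 : stp h Y * stp h Y = (Y * Y) * ((1 - h • E) * (1 - h • E)) := by
    rw [stp, ← hE]
    exact hc'.symm.mul_mul_mul_comm Y (1 - h • E)
  rw [e1, ← hE, hY]
  have h2 : h + h = 1 := by rw [← hh]; ring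
  have e2 : (1 + E) * ((1 - h • E) * (1 - h • E)) - 1 =
      (1 - (h + h)) • E + (h ^ 2 - (h + h)) • (E * E) + h ^ 2 • (E * E * E) := by
    simp only [sub_mul, mul_sub, add_mul, mul_add, one_mul, mul_one, smul_mul_assoc,
      mul_smul_comm, mul_assoc]
    module
  have e3 : E * E * (-(3 * h ^ 2) • 1 + h ^ 2 • E) =
      (-(3 * h ^ 2)) • (E * E) + h ^ 2 • (E * E * E) := by
    rw [mul_add, mul_smul_comm, mul_smul_comm, mul_one]
  rw [e2, e3, h2, sub_self, zero_smul, zero_add]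
  have h4 : h ^ 2 - 1 = -(3 * h ^ 2) := by
    have : (h + h) ^ 2 = 1 := by rw [h2, one_pow]
    linear_combination this
  rw [h4]

/-- **The limit of the iteration.** -/
theorem exists_sqrt_one [CompleteSpace L] (h2 : ‖(2 : L)‖ = 1)
    {P : Set (Matrix (Fin n) (Fin n) L)} (hP : ∀ Y ∈ P, stp (2 : L)⁻¹ Y ∈ P)
    {Y : Matrix (Fin n) (Fin n) L} (hY : Y ∈ P) {r : ℝ} (hr0 : 0 ≤ r) (hr : r < 1)
    (hYr : Bnd r (Y * Y - 1)) : ∃ Y0 ∈ closure P, Y0 * Y0 = 1 := by
  obtain ⟨h, hh⟩ : ∃ h : L, h = 2⁻¹ := ⟨_, rfl⟩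
  rw [← hh] at hP
  have h20 : (2 : L) ≠ 0 := norm_ne_zero_iff.mp (by rw [h2]; exact one_ne_zero)
  have h2h : 2 * h = 1 := by rw [hh, mul_inv_cancel₀ h20]
  have hn : ‖h‖ = 1 := by rw [hh, norm_inv, h2, inv_one]
  have hn2 : ‖h ^ 2‖ ≤ 1 := by rw [norm_pow, hn, one_pow]
  have hn3 : ‖-(3 * h ^ 2)‖ ≤ 1 := by
    rw [norm_neg, norm_mul, norm_pow, hn, one_pow, mul_one]
    have : (3 : L) = 2 + 1 := by norm_num
    rw [this]
    exact (IsUltrametricDist.norm_add_le_max _ _).trans (max_le h2.le norm_one.le)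
  obtain ⟨s, hs⟩ : ∃ s : ℕ → Matrix (Fin n) (Fin n) L, s = fun i => (stp h)^[i] Y := ⟨_, rfl⟩
  have hs0 : s 0 = Y := by rw [hs]; rfl
  have hs1 : ∀ i, s (i + 1) = stp h (s i) := fun i => by
    rw [hs]
    exact Function.iterate_succ_apply' _ _ _
  have hsP : ∀ i, s i ∈ P := by
    intro i
    induction i with
    | zero => rw [hs0]; exact hY
    | succ i ih => rw [hs1]; exact hP _ ih
  have hsE : ∀ i, Bnd (r * r ^ i) (s i * s i - 1) := by
    intro i
    induction i with
    | zero => rw [hs0, pow_zero, mul_one]; exact hYr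
    | succ i ih =>
      rw [hs1, stp_err h2h]
      have hri : 0 ≤ r * r ^ i := by positivity
      have hri1 : r * r ^ i ≤ 1 := by
        have : r ^ i ≤ 1 := pow_le_one₀ hr0 hr.le
        nlinarith
      have h3 : Bnd 1 (-(3 * h ^ 2) • (1 : Matrix (Fin n) (Fin n) L) +
          h ^ 2 • (s i * s i - 1)) :=
        (Bnd.one.smul hn3).add ((ih.mono hri1).smul hn2)
      have h4 := ((ih.mul hri hri ih).mul (mul_nonneg hri hri) zero_le_one h3)
      refine h4.mono ?_
      rw [mul_one, pow_succ]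
      have h5 : r * r ^ i ≤ r := by
        have : r ^ i ≤ 1 := pow_le_one₀ hr0 hr.le
        nlinarith
      calc r * r ^ i * (r * r ^ i) ≤ r * r ^ i * r := mul_le_mul_of_nonneg_left h5 hri
        _ = r * (r ^ i * r) := by ring
  obtain ⟨M, hM0, hM⟩ : ∃ M : ℝ, 0 ≤ M ∧ Bnd M Y := by
    refine ⟨∑ i, ∑ j, ‖Y i j‖, Finset.sum_nonneg fun _ _ => Finset.sum_nonneg fun _ _ =>
      norm_nonneg _, fun i j => ?_⟩
    have h1 := Finset.single_le_sum (f := fun i => ∑ j, ‖Y i j‖)
      (fun _ _ => Finset.sum_nonneg fun _ _ => norm_nonneg _) (Finset.mem_univ i)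
    have h3 := Finset.single_le_sum (f := fun j => ‖Y i j‖)
      (fun _ _ => norm_nonneg _) (Finset.mem_univ j)
    exact h3.trans h1
  have hsM : ∀ i, Bnd M (s i) := by
    intro i
    induction i with
    | zero => rw [hs0]; exact hM
    | succ i ih =>
      rw [hs1]
      have hri1 : r * r ^ i ≤ 1 := by
        have : r ^ i ≤ 1 := pow_le_one₀ hr0 hr.le
        nlinarith
      have h3 : Bnd 1 (1 - h • (s i * s i - 1)) := by
        rw [sub_eq_add_neg]
        exact Bnd.one.add (((hsE i).mono hri1).smul hn.le).neg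
      have h4 := ih.mul hM0 zero_le_one h3
      rwa [mul_one] at h4
  have hsd : ∀ i, Bnd (M * r * r ^ i) (s (i + 1) - s i) := by
    intro i
    have e1 : s (i + 1) - s i = -(s i * (h • (s i * s i - 1))) := by
      rw [hs1, stp, mul_sub, mul_one]
      abel
    rw [e1, mul_assoc]
    exact ((hsM i).mul hM0 (by positivity) ((hsE i).smul hn.le)).neg
  have hlim : ∀ i j, ∃ y : L, Tendsto (fun l => s l i j) atTop (𝓝 y) := by
    intro i j
    apply cauchySeq_tendsto_of_complete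
    refine cauchySeq_of_le_geometric r (M * r) hr fun l => ?_
    rw [dist_comm, dist_eq_norm]
    exact hsd l i j
  choose Y0 hY0 using hlim
  have hlimM : Tendsto s atTop (𝓝 (Matrix.of Y0)) := by
    refine tendsto_pi_nhds.mpr fun i => tendsto_pi_nhds.mpr fun j => hY0 i j
  refine ⟨Matrix.of Y0, mem_closure_of_tendsto hlimM (Eventually.of_forall hsP), ?_⟩
  have h5 : Tendsto (fun l => s l * s l - 1) atTop (𝓝 (Matrix.of Y0 * Matrix.of Y0 - 1)) :=
    (hlimM.mul hlimM).sub tendsto_const_nhds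
  have h6 : Tendsto (fun l => s l * s l - 1) atTop (𝓝 0) := by
    refine tendsto_pi_nhds.mpr fun i => tendsto_pi_nhds.mpr fun j => ?_
    have h7 : Tendsto (fun l : ℕ => r * r ^ l) atTop (𝓝 0) := by
      have := (tendsto_pow_atTop_nhds_zero_of_lt_one hr0 hr).const_mul r
      rwa [mul_zero] at this
    exact squeeze_zero_norm (fun l => hsE l i j) h7
  exact sub_eq_zero.mp (tendsto_nhds_unique h5 h6)

end Vale.Agent.P011.H872.GF
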