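import Vale.Agent.P011.H961.Model
import Vale.Agent.P011.H305.SetF
import Vale.Agent.P011.H872.FF.CentF
import Vale.Agent.P011.H872.GF.SqLim
import Vale.Agent.P011.H872.GF.Diag
import Vale.Agent.P011.H872.GF.MinP

/-!
Antisymmetric elements which anticommute with `t`: density, and elements with prescribed
characteristic polynomial at almost all places.
-/

open Matrix Module Polynomial Filter Topology

set_option linter.unusedSectionVars false

namespace Vale.Agent.P011.H872.GF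

open Vale.Agent.P011.H738 Vale.Agent.P011.H271 Vale.Agent.P011.H487 Vale.Agent.P011.H305
open Vale.Agent.P011.H872.FF
open Vale.Agent.P011.H698 (Sm Bd)

variable {k K D : Type} [Field k] [Field K] [StarRing K] [DivisionRing D] [StarRing D]
  [Algebra k K] [Algebra k D] [Algebra K D] [IsScalarTower k K D] {d : kˣ} {s : K} {n m N : ℕ}

/-- The antisymmetric elements which anticommute with `t`. -/
def Wt (t : D) : Set D := {j | star j = -j ∧ j * t = -(t * j)}

/-- The step of the iteration preserves them. -/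
theorem wt_stp (hS : SetF k K D d s) {t j : D} (hj : j ∈ Wt t) (h : k) :
    j * (1 - h • (j * j - 1)) ∈ Wt t := by
  obtain ⟨h1, h2⟩ := hj
  have e1 : j * (1 - h • (j * j - 1)) = (1 - h • (j * j - 1)) * j := by
    rw [mul_sub, sub_mul, mul_one, one_mul, mul_smul_comm, smul_mul_assoc, mul_sub, sub_mul,
      mul_one, one_mul, mul_assoc]
  have e2 : star (1 - h • (j * j - 1)) = 1 - h • (j * j - 1) := by
    rw [star_sub, star_one, hS.star_smulk, star_sub, star_mul, star_one, h1, neg_mul_neg]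
  have e3 : j * j * t = t * (j * j) := by
    rw [mul_assoc, h2, mul_neg, ← mul_assoc, h2, neg_mul, neg_neg, mul_assoc]
  have e4 : (1 - h • (j * j - 1)) * t = t * (1 - h • (j * j - 1)) := by
    rw [mul_sub, sub_mul, mul_one, one_mul, mul_smul_comm, smul_mul_assoc, mul_sub, sub_mul,
      mul_one, one_mul, e3]
  refine ⟨?_, ?_⟩
  · rw [star_mul, e2, h1, e1, mul_neg]
  · rw [mul_assoc, e4, ← mul_assoc, h2, neg_mul, mul_assoc]

section dens

variable {L : Type} [NontriviallyNormedField L] {φ : K →+* L}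
  {g : D →+* Matrix (Fin n) (Fin n) L}

theorem g_smulk (hg : ∀ c : K, g (algebraMap K D c) = algebraMap L _ (φ c)) (c : k) (x : D) :
    g (c • x) = φ (algebraMap k K c) • g x := by
  rw [← algebraMap_smul K c x, Algebra.smul_def, map_mul, hg, ← Algebra.smul_def]

theorem g_smulK (hg : ∀ c : K, g (algebraMap K D c) = algebraMap L _ (φ c)) (c : K) (x : D) :
    g (c • x) = φ c • g x := by
  rw [Algebra.smul_def, map_mul, hg, ← Algebra.smul_def]

theorem g_stp (hg : ∀ c : K, g (algebraMap K D c) = algebraMap L _ (φ c)) (j : D) :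
    g (j * (1 - (2 : k)⁻¹ • (j * j - 1))) = stp (2 : L)⁻¹ (g j) := by
  have h1 : φ (algebraMap k K (2 : k)⁻¹) = (2 : L)⁻¹ := by
    rw [map_inv₀, map_inv₀, map_ofNat, map_ofNat]
  rw [map_mul, map_sub, map_one, g_smulk hg, map_sub, map_mul, map_one, h1, stp]

/-- Density. -/
theorem mem_closure_W (hS : SetF k K D d s)
    (hg : ∀ c : K, g (algebraMap K D c) = algebraMap L _ (φ c)) {a : kˣ} {t : D}
    (ht : t ∈ XaF D a) {X : Matrix (Fin n) (Fin n) L} (hX : X * g t = -(g t * X))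
    (hd : ∀ O ∈ 𝓝 ((φ s)⁻¹ • X), ∃ σ : D, star σ = σ ∧ g σ ∈ O) : X ∈ closure (g '' Wt t) := by
  obtain ⟨ht1, ht2⟩ := ht
  have h2k := hS.two_ne
  have h2K : (2 : K) ≠ 0 := by
    rw [← map_ofNat (algebraMap k K) 2]
    exact (_root_.map_ne_zero _).mpr h2k
  have h2L : (2 : L) ≠ 0 := by
    rw [← map_ofNat φ 2]
    exact (_root_.map_ne_zero _).mpr h2K
  have hs0 : φ s ≠ 0 := (_root_.map_ne_zero _).mpr hS.s_ne
  have ha0 : algebraMap k K (a : k) ≠ 0 := (_root_.map_ne_zero _).mpr a.ne_zero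
  have ha1 : φ (algebraMap k K (a : k)) ≠ 0 := (_root_.map_ne_zero _).mpr ha0
  obtain ⟨b, hb⟩ : ∃ b : k, b = (a : k)⁻¹ := ⟨_, rfl⟩
  have hba : b * (a : k) = 1 := by rw [hb, inv_mul_cancel₀ a.ne_zero]
  have hφb : φ (algebraMap k K b) * φ (algebraMap k K (a : k)) = 1 := by
    rw [← map_mul, ← map_mul, hba, map_one, map_one]
  have hT : g t * g t = φ (algebraMap k K (a : k)) • 1 := by
    rw [← map_mul, ht2, IsScalarTower.algebraMap_apply k K D, hg, Algebra.algebraMap_eq_smul_one]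
  rw [mem_closure_iff_nhds]
  intro O hO
  obtain ⟨Φ, hΦ⟩ : ∃ Φ : Matrix (Fin n) (Fin n) L → Matrix (Fin n) (Fin n) L,
      Φ = fun Y => (φ s * (2 : L)⁻¹) • (Y - φ (algebraMap k K b) • (g t * Y * g t)) := ⟨_, rfl⟩
  have hΦc : Continuous Φ := by
    have c1 : Continuous fun Y : Matrix (Fin n) (Fin n) L => g t * Y * g t :=
      (continuous_const.mul continuous_id).mul continuous_const
    have c2 : Continuous fun Y : Matrix (Fin n) (Fin n) L =>
        Y - φ (algebraMap k K b) • (g t * Y * g t) := continuous_id.sub ((continuous_const_smul _).comp c1)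
    rw [hΦ]
    exact (continuous_const_smul _).comp c2
  have hΦX : Φ ((φ s)⁻¹ • X) = X := by
    have e1 : g t * X * g t = -(φ (algebraMap k K (a : k)) • X) := by
      rw [mul_assoc, hX, mul_neg, ← mul_assoc, hT, smul_mul_assoc, one_mul]
    rw [hΦ]
    beta_reduce
    rw [mul_smul_comm, smul_mul_assoc, e1, smul_neg, smul_neg, sub_neg_eq_add, smul_smul,
      smul_smul, ← add_smul, smul_smul]
    have e2 : (φ s * (2 : L)⁻¹) * ((φ s)⁻¹ + φ (algebraMap k K b) * (φ s)⁻¹ *
        φ (algebraMap k K (a : k))) = 1 := by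
      have e3 : φ (algebraMap k K b) * (φ s)⁻¹ * φ (algebraMap k K (a : k)) = (φ s)⁻¹ := by
        rw [mul_right_comm, hφb, one_mul]
      rw [e3]
      field_simp
      ring
    rw [e2, one_smul]
  obtain ⟨σ, hσ, hσO⟩ := hd (Φ ⁻¹' O) (hΦc.continuousAt (by rwa [hΦX]))
  have hsm : ∀ (c : k) (x : D), star (c • x) = c • star x := hS.star_smulk
  have htσt : star (t * σ * t) = t * σ * t := by
    rw [star_mul, star_mul, ht1, hσ, mul_assoc]
  have hgj : g ((s * (2 : K)⁻¹) • (σ - b • (t * σ * t))) = Φ (g σ) := by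
    rw [hΦ, g_smulK hg, map_sub, g_smulk hg, map_mul, map_mul, map_mul, map_inv₀, map_ofNat]
  refine ⟨Φ (g σ), hσO, (s * (2 : K)⁻¹) • (σ - b • (t * σ * t)), ⟨?_, ?_⟩, hgj⟩
  · rw [hS.star_smul, star_sub, hsm, htσt, hσ, star_mul', hS.star_s, star_inv₀, star_ofNat,
      neg_mul, neg_smul]
  · have e1 : t * σ * t * t = (a : k) • (t * σ) := by
      rw [mul_assoc, ht2, Algebra.algebraMap_eq_smul_one, mul_smul_comm, mul_one]
    have e2 : t * (t * σ * t) = (a : k) • (σ * t) := by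
      rw [mul_assoc, ← mul_assoc, ht2, Algebra.algebraMap_eq_smul_one, smul_mul_assoc, one_mul]
    rw [smul_mul_assoc, mul_smul_comm, ← smul_neg]
    congr 1
    rw [sub_mul, mul_sub, smul_mul_assoc, e1, mul_smul_comm, e2, smul_smul, smul_smul, hba,
      one_smul, one_smul, neg_sub]

end dens

/-- A limit whose square is one. -/
theorem exists_Y0 [GFF k] (hS : SetF k K D d s) (B : Basis (Fin N) k D) {t : D} {v : Place k}
    {L : Type} [NontriviallyNormedField L] [IsUltrametricDist L] [CompleteSpace L]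
    {φ : K →+* L} (hφ : ∀ c : k, ‖φ (algebraMap k K c)‖ = v.abv c)
    {g : D →+* Matrix (Fin n) (Fin n) L}
    (hg : ∀ c : K, g (algebraMap K D c) = algebraMap L _ (φ c)) (h2 : v.abv (2 : k) = 1)
    (hnear : ∀ ε : ℝ, 0 < ε → ∃ j1 : D, star j1 = -j1 ∧ j1 * t = -(t * j1) ∧
      Sm B v ε (j1 * j1 - 1)) :
    ∃ Y0 ∈ closure (g '' Wt t), Y0 * Y0 = 1 ∧ Y0 * g t = -(g t * Y0) := by
  have hsm := hS.starModule
  obtain ⟨C, hC, hup⟩ := H961.exists_up B v φ hφ hg
  have hC0 : 0 < C := zero_lt_one.trans_le hC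
  obtain ⟨j1, h3, h4, h5⟩ := hnear (1 / (2 * C)) (by positivity)
  have h6 := hup _ _ (by positivity) h5.bd
  have h2L : ‖(2 : L)‖ = 1 := by
    rw [← h2, ← hφ, map_ofNat, map_ofNat]
  obtain ⟨Y0, h7, h8⟩ := exists_sqrt_one (P := g '' Wt t) h2L (by
      rintro _ ⟨j, hj, rfl⟩
      rw [← g_stp (k := k) hg]
      exact ⟨_, wt_stp hS hj _, rfl⟩) ⟨j1, ⟨h3, h4⟩, rfl⟩ (r := C * (1 / (2 * C)))
    (by positivity) (by
      have : C * (1 / (2 * C)) = 1 / 2 := by field_simp
      rw [this]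
      norm_num) (by
      rw [← map_mul, ← map_one g, ← map_sub]
      exact h6)
  refine ⟨Y0, h7, h8, ?_⟩
  have hcl : IsClosed {Y : Matrix (Fin n) (Fin n) L | Y * g t = -(g t * Y)} :=
    isClosed_eq (continuous_id.mul continuous_const) (continuous_const.mul continuous_id).neg
  refine hcl.closure_subset_iff.mpr ?_ h7
  rintro _ ⟨j, hj, rfl⟩
  rw [Set.mem_ofPred_eq, ← map_mul, ← map_mul, hj.2, map_neg]

/-- **Split places.** -/
theorem pre_split [GFF k] (hS : SetF k K D d s) (hn : n = 2 * m) (hn0 : n ≠ 0)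
    (hdeg : finrank K D = n ^ 2) (B : Basis (Fin N) k D) {a : kˣ} {t : D} (ht : t ∈ XaF D a)
    {v : Place k} (h2 : v.abv (2 : k) = 1)
    (hnear : ∀ ε : ℝ, 0 < ε → ∃ j1 : D, star j1 = -j1 ∧ j1 * t = -(t * j1) ∧
      Sm B v ε (j1 * j1 - 1)) {φ : K →ₐ[k] v.comp}
    {g : D →+* Matrix (Fin n) (Fin n) v.comp}
    (hg : ∀ c : K, g (algebraMap K D c) = algebraMap v.comp _ (φ c)) (c : Fin m → k) :
    letI := nnfPlace v
    ∃ Y ∈ closure (g '' Wt t),
      Y.charpoly = ∏ i, (X ^ 2 - C (φ (algebraMap k K (c i)) ^ 2)) := by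
  let _ := nnfPlace v
  have hsm := hS.starModule
  have hA := hS.anis hdeg
  have hcen := hA.central
  have hsim := hA.simple
  have hspan := H519.span_swap hA.finrank_eq hn0 hA.star_ne (φ : K →+* v.comp) g hg
  have hn1 : ∀ c : k, ‖(φ : K →+* v.comp) (algebraMap k K c)‖ = v.abv c := fun c => by
    change ‖φ (algebraMap k K c)‖ = _
    rw [φ.commutes, norm_alg]
  obtain ⟨Y0, -, h3, h4⟩ := exists_Y0 (L := v.comp) (φ := (φ : K →+* v.comp)) hS B hn1 hg h2 hnear
  have h2k := hS.two_ne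
  have h2L : (2 : v.comp) ≠ 0 := by
    rw [← map_ofNat (algebraMap k v.comp) 2]
    exact (_root_.map_ne_zero _).mpr h2k
  have hT : g t * g t = φ (algebraMap k K (a : k)) • 1 := by
    rw [← map_mul, ht.2, IsScalarTower.algebraMap_apply k K D, hg, Algebra.algebraMap_eq_smul_one]
  have ha : φ (algebraMap k K (a : k)) ≠ 0 := (_root_.map_ne_zero _).mpr
    ((_root_.map_ne_zero _).mpr a.ne_zero)
  obtain ⟨Y, h5, h6⟩ := exists_mat h2L ha hn hT h3 h4 fun i => φ (algebraMap k K (c i))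
  exact ⟨Y, mem_closure_W (φ := (φ : K →+* v.comp)) hS hg ht h5 fun O hO =>
    H565.dense_sym_FF hA hg hspan _ hO, h6⟩

/-- **Places which do not split in the centre.** -/
theorem pre_nonsplit [GFF k] (hS : SetF k K D d s) (hn : n = 2 * m) (hn0 : n ≠ 0)
    (hdeg : finrank K D = n ^ 2) (B : Basis (Fin N) k D) {a : kˣ} {t : D} (ht : t ∈ XaF D a)
    {v : Place k} (h2 : v.abv (2 : k) = 1)
    (hnear : ∀ ε : ℝ, 0 < ε → ∃ j1 : D, star j1 = -j1 ∧ j1 * t = -(t * j1) ∧
      Sm B v ε (j1 * j1 - 1))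
    {L : Type} [NontriviallyNormedField L] [CompleteSpace L] [IsUltrametricDist L] [StarRing L]
    {φ : K →+* L} (hst : ∀ x : L, ‖star x‖ = ‖x‖)
    (hφs : ∀ x, φ (star x) = star (φ x)) (hd : DenseRange φ)
    (hφ : ∀ c : k, ‖φ (algebraMap k K c)‖ = v.abv c)
    {g : D →+* Matrix (Fin n) (Fin n) L}
    (hg : ∀ c : K, g (algebraMap K D c) = algebraMap L _ (φ c)) (c : Fin m → k) :
    ∃ Y ∈ closure (g '' Wt t),
      Y.charpoly = ∏ i, (X ^ 2 - C (φ (algebraMap k K (c i)) ^ 2)) := by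
  have hsm := hS.starModule
  have hA := hS.anis hdeg
  have hcen := hA.central
  have hsim := hA.simple
  have hne : ∃ x : L, star x ≠ x := by
    obtain ⟨x, hx⟩ := hA.star_ne
    refine ⟨φ x, fun h => hx (φ.injective ?_)⟩
    rw [hφs, h]
  obtain ⟨H, hH, hdet, hgH⟩ := H756.exists_herm hn0 hA.finrank_eq hne φ hφs g hg
  have hcs : Continuous (star : L → L) := by
    have h1 : Isometry (star : L → L) := Isometry.of_dist_eq fun x y => by
      rw [dist_eq_norm, dist_eq_norm, ← star_sub, hst]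
    exact h1.continuous
  obtain ⟨Y0, h0, h3, h4⟩ := exists_Y0 hS B hφ hg h2 hnear
  have h2k := hS.two_ne
  have h2K : (2 : K) ≠ 0 := by
    rw [← map_ofNat (algebraMap k K) 2]
    exact (_root_.map_ne_zero _).mpr h2k
  have h2L : (2 : L) ≠ 0 := by
    rw [← map_ofNat φ 2]
    exact (_root_.map_ne_zero _).mpr h2K
  have hT : g t * g t = φ (algebraMap k K (a : k)) • 1 := by
    rw [← map_mul, ht.2, IsScalarTower.algebraMap_apply k K D, hg, Algebra.algebraMap_eq_smul_one]
  have ha : φ (algebraMap k K (a : k)) ≠ 0 := (_root_.map_ne_zero _).mpr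
    ((_root_.map_ne_zero _).mpr a.ne_zero)
  have hTH : g t * H = H * (g t)ᴴ := by
    have h5 := hgH t
    rwa [ht.1] at h5
  have hYH : Y0 * H = -(H * Y0ᴴ) := by
    have hc1 : Continuous fun Y : Matrix (Fin n) (Fin n) L => Yᴴ := by
      refine continuous_matrix fun i j => ?_
      exact hcs.comp (continuous_id.matrix_elem j i)
    have hcl : IsClosed {Y : Matrix (Fin n) (Fin n) L | Y * H = -(H * Yᴴ)} :=
      isClosed_eq (continuous_id.mul continuous_const) (continuous_const.mul hc1).neg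
    refine hcl.closure_subset_iff.mpr ?_ h0
    rintro _ ⟨j, hj, rfl⟩
    rw [Set.mem_ofPred_eq, ← hgH, hj.1, map_neg, neg_mul, neg_neg]
  have hks : ∀ c : k, star (φ (algebraMap k K c)) = φ (algebraMap k K c) := fun c => by
    rw [← hφs, hS.star_algebraMap]
  obtain ⟨Y, h5, h6, h7⟩ := exists_mat_herm hne h2L ha hn hH hdet hT hTH h3 h4 hYH
    (fun i => φ (algebraMap k K (c i))) fun i => hks (c i)
  have hs0 : φ s ≠ 0 := (_root_.map_ne_zero _).mpr hS.s_ne
  refine ⟨Y, mem_closure_W hS hg ht h5 fun O hO => ?_, h7⟩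
  refine H800.dense_sym_herm hA hn0 hst φ hφs hd hg hdet hgH ?_ hO
  have h8 : star (φ s)⁻¹ = -(φ s)⁻¹ := by
    rw [star_inv₀, ← hφs, hS.star_s, map_neg, inv_neg]
  rw [smul_mul_assoc, h6, conjTranspose_smul, h8, mul_smul_comm, neg_smul, smul_neg]

end Vale.Agent.P011.H872.GF
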