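import Vale.Agent.P011.H872.GF.Dens
import Mathlib.LinearAlgebra.Matrix.Charpoly.Univ

/-!
The local condition at almost all places: a ball of antisymmetric elements which anticommute with
`t` and whose squares have a minimal polynomial with Newton polygon of many slopes.
-/

open Matrix Module Polynomial Filter Topology

set_option linter.unusedSectionVars false

namespace Vale.Agent.P011.H872.GF

open Vale.Agent.P011.H738 Vale.Agent.P011.H271 Vale.Agent.P011.H487 Vale.Agent.P011.H305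
open Vale.Agent.P011.H872.FF Vale.Agent.P011.H961
open Vale.Agent.P011.H698 (Sm Bd)

theorem cont_coeff {F : Type*} [CommRing F] [TopologicalSpace F]
    [IsTopologicalRing F] {n : Type*} [Fintype n] [DecidableEq n] (i : ℕ) :
    Continuous fun X : Matrix n n F => X.charpoly.coeff i := by
  have h1 : (fun X : Matrix n n F => X.charpoly.coeff i) = fun X : Matrix n n F =>
      MvPolynomial.eval (fun p : n × n => X p.1 p.2) ((charpoly.univ F n).coeff i) := by
    funext X
    have h2 := charpoly.univ_coeff_eval₂Hom n (RingHom.id F) (fun p : n × n => X p.1 p.2) i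
    have h3 : Matrix.of (Function.curry fun p : n × n => X p.1 p.2) = X := by
      ext a b
      rfl
    rw [h3] at h2
    exact h2.symm
  rw [h1]
  refine (MvPolynomial.continuous_eval _).comp (continuous_pi fun p => ?_)
  exact (continuous_apply p.2).comp (continuous_apply p.1)

theorem exists_ball_at {L : Type*} [NontriviallyNormedField L] {n : ℕ}
    {U : Set (Matrix (Fin n) (Fin n) L)} {A : Matrix (Fin n) (Fin n) L} (hU : U ∈ 𝓝 A) :
    ∃ δ : ℝ, 0 < δ ∧ ∀ x, Eb δ (x - A) → x ∈ U := by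
  let _ : NormedAddCommGroup (Matrix (Fin n) (Fin n) L) := Matrix.normedAddCommGroup
  obtain ⟨δ, hδ, h⟩ := (Metric.nhds_basis_closedBall (x := A)).mem_iff.mp hU
  refine ⟨δ, hδ, fun x hx => h ?_⟩
  rw [mem_closedBall_iff_norm, Matrix.norm_le_iff hδ.le]
  exact hx

variable {k K D : Type} [Field k] [Field K] [StarRing K] [DivisionRing D] [StarRing D]
  [Algebra k K] [Algebra k D] [Algebra K D] [IsScalarTower k K D] {d : kˣ} {s : K} {n m N : ℕ}

/-- The local condition at `v` with radius `ε` and centre `jv`. -/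
def BallAt (B : Basis (Fin N) k D) (v : Place k) (m : ℕ) (t : D) (c : Fin m → k) (jv : D)
    (ε : ℝ) : Prop :=
  ∀ j ∈ Wt t, Sm B v ε (j - jv) → (minpoly k (j * j)).natDegree = m ∧
    ∀ i, i ≤ m → v.abv ((minpoly k (j * j)).coeff i) =
      v.abv ((∏ i, (X - C (c i ^ 2)) : k[X]).coeff i)

theorem exists_ball [GFF k] (hS : SetF k K D d s) (B : Basis (Fin N) k D) {a : kˣ} {t : D}
    (ht : t ∈ XaF D a) {v : Place k} {L : Type} [NontriviallyNormedField L]
    [IsUltrametricDist L] [CompleteSpace L] {φ : K →+* L}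
    (hφ : ∀ c : k, ‖φ (algebraMap k K c)‖ = v.abv c) (hm : 0 < m) (hn : n = 2 * m)
    {g : D →+* Matrix (Fin n) (Fin n) L}
    (hg : ∀ c : K, g (algebraMap K D c) = algebraMap L _ (φ c)) {c : Fin m → k}
    (hc0 : ∀ i, c i ≠ 0) (hc : ∀ i j, i < j → v.abv (c i) < v.abv (c j))
    {Y : Matrix (Fin n) (Fin n) L} (hY : Y ∈ closure (g '' Wt t))
    (hYc : Y.charpoly = ∏ i, (X ^ 2 - C (φ (algebraMap k K (c i)) ^ 2))) :
    ∃ jv ∈ Wt t, ∃ ε : ℝ, 0 < ε ∧ BallAt B v m t c jv ε := by
  have hsm := hS.starModule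
  have hfd := hS.fin
  have hcen := hS.cen
  have hKf : FiniteDimensional k K := Module.finite_of_finrank_pos (by rw [hS.rank]; norm_num)
  have hDf : FiniteDimensional k D := Module.Finite.trans K D
  have h2k := hS.two_ne
  have h2K : (2 : K) ≠ 0 := by
    rw [← map_ofNat (algebraMap k K) 2]
    exact (_root_.map_ne_zero _).mpr h2k
  have h2L : (2 : L) ≠ 0 := by
    rw [← map_ofNat φ 2]
    exact (_root_.map_ne_zero _).mpr h2K
  let ψ : k →+* L := φ.comp (algebraMap k K)
  obtain ⟨P, hP⟩ : ∃ P : k[X], P = ∏ i, (X - C (c i ^ 2)) := ⟨_, rfl⟩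
  have hPm : P.map ψ = ∏ i, (X - C (ψ (c i) ^ 2)) := by
    rw [hP, Polynomial.map_prod]
    exact Finset.prod_congr rfl fun i _ => by
      rw [Polynomial.map_sub, map_X, map_C, map_pow]
  have hψ : ∀ c, ‖ψ c‖ = v.abv c := hφ
  have hYe : Y.charpoly = expand L 2 (P.map ψ) := by
    rw [hYc, hPm, map_prod]
    exact Finset.prod_congr rfl fun i _ => by
      rw [map_sub, expand_X, expand_C]
      rfl
  have hYi : ∀ i, Y.charpoly.coeff (2 * i) = ψ (P.coeff i) := fun i => by
    rw [hYe, mul_comm, coeff_expand_mul two_pos, coeff_map]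
  -- the Newton condition
  obtain ⟨w1, w2⟩ := norm_coeff_prod m (fun i => ψ (c i) ^ 2)
    (fun i => pow_ne_zero _ ((_root_.map_ne_zero _).mpr (hc0 i))) fun i j hij => by
      rw [norm_pow, norm_pow, hψ, hψ]
      exact pow_lt_pow_left₀ (hc i j hij) (v.abv.nonneg _) two_ne_zero
  have w3 := fun i hi0 hi => newton_of_roots (m := m) (r := fun i => ψ (c i) ^ 2)
    (fun i => pow_ne_zero _ ((_root_.map_ne_zero _).mpr (hc0 i))) (fun i j hij => by
      rw [norm_pow, norm_pow, hψ, hψ]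
      exact pow_lt_pow_left₀ (hc i j hij) (v.abv.nonneg _) two_ne_zero) i hi0 hi
  rw [← hPm] at w1 w2 w3
  -- the open set
  have hO : (⋂ i : Fin (m + 1), {A : Matrix (Fin n) (Fin n) L |
      ‖A.charpoly.coeff (2 * i) - Y.charpoly.coeff (2 * i)‖ < ‖Y.charpoly.coeff (2 * i)‖}) ∈
      𝓝 Y := by
    refine IsOpen.mem_nhds (isOpen_iInter_of_finite fun i =>
      isOpen_lt ((cont_coeff _).sub continuous_const).norm continuous_const) ?_
    rw [Set.mem_iInter]
    intro i
    rw [Set.mem_ofPred_eq, sub_self, norm_zero, norm_pos_iff, hYi, ← coeff_map]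
    exact w1 i (by omega)
  obtain ⟨O, hOd⟩ : ∃ O, O = (⋂ i : Fin (m + 1), {A : Matrix (Fin n) (Fin n) L |
      ‖A.charpoly.coeff (2 * i) - Y.charpoly.coeff (2 * i)‖ < ‖Y.charpoly.coeff (2 * i)‖}) :=
    ⟨_, rfl⟩
  have hOo : IsOpen O := by
    rw [hOd]
    exact isOpen_iInter_of_finite fun i =>
      isOpen_lt ((cont_coeff _).sub continuous_const).norm continuous_const
  rw [← hOd] at hO
  obtain ⟨_, hgO, jv, hjv, rfl⟩ := mem_closure_iff_nhds.mp hY O hO
  obtain ⟨δ, hδ, hδO⟩ := exists_ball_at (hOo.mem_nhds hgO)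
  obtain ⟨C', hC, hup⟩ := H961.exists_up B v φ hφ hg
  have hC0 : 0 < C' := zero_lt_one.trans_le hC
  refine ⟨jv, hjv, δ / C', by positivity, fun j hj hsmj => ?_⟩
  have h1 := hup _ _ (by positivity) hsmj.bd
  rw [mul_div_cancel₀ _ hC0.ne', map_sub] at h1
  have h2 := hδO _ h1
  rw [hOd, Set.mem_iInter] at h2
  have h3 : ∀ i, i ≤ m → ‖(g j).charpoly.coeff (2 * i)‖ = ‖(P.map ψ).coeff i‖ := by
    intro i hi
    have h4 := h2 ⟨i, by omega⟩
    rw [Set.mem_ofPred_eq] at h4
    have h5 := IsUltrametricDist.norm_add_eq_max_of_norm_ne_norm h4.ne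
    rw [sub_add_cancel, max_eq_right h4.le] at h5
    rw [h5, hYi, coeff_map]
  obtain ⟨h6, h7⟩ := minpoly_of_newton (k := k) (a := (a : k)) hS.fix hS.star_smul h2L hm hn hg
    a.ne_zero ht.2 hj.1 hj.2 (by
      have h8 := h3 0 (Nat.zero_le _)
      rw [Nat.mul_zero] at h8
      rw [← norm_ne_zero_iff, h8, norm_ne_zero_iff]
      exact w1 0 (Nat.zero_le _)) fun i hi0 hi => by
        rw [h3 _ (by omega), h3 _ (by omega), h3 _ (by omega)]
        exact w3 i hi0 hi
  refine ⟨h6, fun i hi => ?_⟩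
  rw [← hφ, h7 i, h3 i hi, coeff_map, hψ, hP]

end Vale.Agent.P011.H872.GF
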