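import Vale.Agent.P011.H872.GF.BallNewt
import Vale.Agent.P011.H872.GF.PlaceHom
import Vale.Agent.P011.H74.CompsF

/-!
An antisymmetric element which anticommutes with `t` and whose square is separable.
-/

open Matrix Module Polynomial Filter Topology

set_option linter.unusedSectionVars false

namespace Vale.Agent.P011.H872.GF

open Vale.Agent.P011.H738 Vale.Agent.P011.H271 Vale.Agent.P011.H487 Vale.Agent.P011.H305
open Vale.Agent.P011.H872.FF Vale.Agent.P011.H961
open Vale.Agent.P011.H698 (Sm Bd)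

variable {k K D : Type} [Field k] [Field K] [StarRing K] [DivisionRing D] [StarRing D]
  [Algebra k K] [Algebra k D] [Algebra K D] [IsScalarTower k K D] {d : kˣ} {s : K} {n m N : ℕ}

theorem exists_j0 (hS : SetF k K D d s) {a : kˣ} {t : D} (ht : t ∈ XaF D a)
    (ha : ¬ IsSquare (a : k)) : ∃ j0 ∈ Wt t, j0 ≠ 0 := by
  have hcen := hS.cen
  obtain ⟨ht1, ht2⟩ := ht
  have h1 : ∃ x : D, x * t ≠ t * x := by
    by_contra hcon
    push Not at hcon
    have h2 : t ∈ Subalgebra.center K D := Subalgebra.mem_center_iff.mpr hcon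
    rw [Algebra.IsCentral.center_eq_bot, Algebra.mem_bot] at h2
    obtain ⟨c, rfl⟩ := h2
    have h3 : algebraMap K D (star c) = algebraMap K D c := by
      have h4 := hS.star_smul c 1
      rwa [star_one, ← Algebra.algebraMap_eq_smul_one, ← Algebra.algebraMap_eq_smul_one, ht1,
        eq_comm] at h4
    obtain ⟨b, rfl⟩ := (hS.fix c).mp ((algebraMap K D).injective h3)
    refine ha ⟨b, ?_⟩
    rw [← IsScalarTower.algebraMap_apply, ← map_mul] at ht2
    exact ((algebraMap k D).injective ht2).symm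
  obtain ⟨x, hx⟩ := h1
  have hca : ∀ y : D, algebraMap k D a * y = y * algebraMap k D a := fun y =>
    Algebra.commutes _ _
  obtain ⟨u, hu⟩ : ∃ u : D, u = t * t * x - t * x * t := ⟨_, rfl⟩
  have hut : u * t = -(t * u) := by
    have e1 : u * t = algebraMap k D a * (x * t) - algebraMap k D a * (t * x) := by
      rw [hu, sub_mul, mul_assoc (t * x), ht2, mul_assoc (algebraMap k D a), ← hca (t * x)]
    have e2 : t * u = algebraMap k D a * (t * x) - algebraMap k D a * (x * t) := by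
      have e3 : t * (t * x * t) = t * t * (x * t) := by simp only [mul_assoc]
      rw [hu, mul_sub, e3, ht2, ← mul_assoc t, ← hca t, mul_assoc]
    rw [e1, e2, neg_sub]
  have hu0 : u ≠ 0 := by
    have e : u = t * (t * x - x * t) := by
      rw [hu, mul_sub]
      simp only [mul_assoc]
    have ht0 : t ≠ 0 := by
      rintro rfl
      exact hx (by rw [mul_zero, zero_mul])
    rw [e]
    exact mul_ne_zero ht0 (sub_ne_zero.mpr (Ne.symm hx))
  by_cases h : star u = u
  · refine ⟨s • u, ⟨?_, ?_⟩, ?_⟩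
    · rw [hS.star_smul, hS.star_s, h, neg_smul]
    · rw [smul_mul_assoc, hut, mul_smul_comm, smul_neg]
    · exact smul_ne_zero hS.s_ne hu0
  · refine ⟨u - star u, ⟨?_, ?_⟩, fun h0 => h (sub_eq_zero.mp h0).symm⟩
    · rw [star_sub, star_star, neg_sub]
    · have e : star u * t = -(t * star u) := by
        have e1 := congrArg star hut
        rw [star_mul, star_neg, star_mul, ht1] at e1
        rw [e1, neg_neg]
      rw [sub_mul, mul_sub, hut, e, neg_sub, neg_sub_neg]

/-- The consequences of the local condition. -/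
theorem ball_spec (hS : SetF k K D d s) (B : Basis (Fin N) k D) {t : D} {v : Place k}
    {c : Fin m → k} (hc0 : ∀ i, c i ≠ 0) (hc : ∀ i j, i < j → v.abv (c i) < v.abv (c j))
    {jv : D} {ε : ℝ} (hball : BallAt B v m t c jv ε) {j : D} (hj : j ∈ Wt t)
    (hjv : Sm B v ε (j - jv)) : j ≠ 0 ∧ (minpoly k (j * j)).natDegree = m ∧
      (minpoly k (j * j)).Separable ∧
      ((minpoly k (j * j)).map (algebraMap k v.comp)).Splits ∧
      ∀ i, i ≤ m → v.abv ((minpoly k (j * j)).coeff i) =
        v.abv ((∏ i, (X - C (c i ^ 2)) : k[X]).coeff i) := by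
  have hfd := hS.fin
  have hKf : FiniteDimensional k K := Module.finite_of_finrank_pos (by rw [hS.rank]; norm_num)
  have hDf : FiniteDimensional k D := Module.Finite.trans K D
  obtain ⟨h1, h2⟩ := hball j hj hjv
  have hμ := minpoly.monic (IsIntegral.of_finite k (j * j))
  obtain ⟨h3, h4⟩ := sep_splits hc0 hc hμ h1 h2
  refine ⟨?_, h1, h3, h4, h2⟩
  rintro rfl
  have h5 := h2 0 (Nat.zero_le _)
  rw [mul_zero, minpoly.zero, coeff_X_zero, map_zero, eq_comm, map_eq_zero, coeff_zero_prod] at h5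
  rw [Finset.prod_eq_zero_iff] at h5
  obtain ⟨i, -, h6⟩ := h5
  rw [coeff_sub, coeff_X_zero, coeff_C_zero, zero_sub, neg_eq_zero] at h6
  exact pow_ne_zero 2 (hc0 i) h6

/-- Elements of the field with increasing absolute values. -/
theorem exists_incr (v : Place k) (m : ℕ) : ∃ c : Fin m → k, (∀ i, c i ≠ 0) ∧
    ∀ i j, i < j → v.abv (c i) < v.abv (c j) := by
  obtain ⟨x, hx⟩ := v.normalized.2.1
  have h1 : 1 < v.abv x := by
    rw [hx]
    exact_mod_cast one_lt_qq v
  refine ⟨fun i => x ^ (i : ℕ), fun i => pow_ne_zero _ ?_, fun i j hij => ?_⟩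
  · rintro rfl
    rw [map_zero] at h1
    exact absurd h1 (not_lt.mpr zero_le_one)
  · rw [map_pow, map_pow]
    exact pow_lt_pow_right₀ h1 hij

/-- The involution from the two idempotents. -/
theorem exists_invol {F : Type*} [Field F] {n : ℕ} (h2 : (2 : F) ≠ 0) {α : F} (hα : α ≠ 0)
    {T J J' : Matrix (Fin n) (Fin n) F} (hT : T * T = (α ^ 2) • 1) (hJJ : J * J' = 1)
    (hJJ' : J' * J = 1) (hJT : J * T = -(T * J)) :
    ∃ Y0 : Matrix (Fin n) (Fin n) F, Y0 * Y0 = 1 ∧ Y0 * T = -(T * Y0) := by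
  have hJT' : J' * T = -(T * J') := by
    calc J' * T = J' * (T * J) * J' := by rw [mul_assoc, mul_assoc, hJJ, mul_one]
      _ = -(J' * (J * T) * J') := by rw [hJT, mul_neg, neg_mul, neg_neg]
      _ = _ := by rw [← mul_assoc J', hJJ', one_mul]
  obtain ⟨p, hp⟩ : ∃ p : Matrix (Fin n) (Fin n) F, p = (2 : F)⁻¹ • (1 + α⁻¹ • T) := ⟨_, rfl⟩
  obtain ⟨q, hq⟩ : ∃ q : Matrix (Fin n) (Fin n) F, q = (2 : F)⁻¹ • (1 - α⁻¹ • T) := ⟨_, rfl⟩
  have hpq : p + q = 1 := by
    rw [hp, hq, ← smul_add, add_add_sub_cancel, ← two_smul F, smul_smul, inv_mul_cancel₀ h2,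
      one_smul]
  have hpq0 : p * q = 0 := by
    rw [hp, hq, smul_mul_assoc, mul_smul_comm, add_mul, mul_sub, mul_sub, one_mul, mul_one,
      one_mul, smul_mul_assoc, mul_smul_comm, hT, smul_smul, smul_smul, smul_smul]
    have e : α⁻¹ * α⁻¹ * α ^ 2 = 1 := by field_simp
    rw [e, one_smul, sub_add_sub_cancel, sub_self, smul_zero]
  have hp2 : p * p = p := by
    have e : p * (p + q) = p := by rw [hpq, mul_one]
    rwa [mul_add, hpq0, add_zero] at e
  have hqp0 : q * p = 0 := by
    have e : (p + q) * p = p := by rw [hpq, one_mul]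
    rw [add_mul, hp2] at e
    exact left_eq_add.mp e.symm
  have hq2 : q * q = q := by
    have e : q * (p + q) = q := by rw [hpq, mul_one]
    rwa [mul_add, hqp0, zero_add] at e
  have c1 : ∀ A : Matrix (Fin n) (Fin n) F, A * T = -(T * A) → A * p = q * A := by
    intro A hA
    rw [hp, hq, mul_smul_comm, smul_mul_assoc, mul_add, sub_mul, mul_one, one_mul,
      mul_smul_comm, smul_mul_assoc, hA, smul_neg, ← sub_eq_add_neg]
  have c2 : ∀ A : Matrix (Fin n) (Fin n) F, A * T = -(T * A) → A * q = p * A := by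
    intro A hA
    rw [hp, hq, mul_smul_comm, smul_mul_assoc, mul_sub, add_mul, mul_one, one_mul,
      mul_smul_comm, smul_mul_assoc, hA, smul_neg, sub_neg_eq_add]
  have d1 : ∀ A : Matrix (Fin n) (Fin n) F, A * T = -(T * A) → A * p * T = -(T * (A * p)) := by
    intro A hA
    have e1 : p * T = T * p := by
      rw [hp, smul_mul_assoc, mul_smul_comm, add_mul, mul_add, one_mul, mul_one, smul_mul_assoc,
        mul_smul_comm]
    rw [mul_assoc, e1, ← mul_assoc, hA, neg_mul, mul_assoc]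
  have d2 : ∀ A : Matrix (Fin n) (Fin n) F, A * T = -(T * A) → A * q * T = -(T * (A * q)) := by
    intro A hA
    have e1 : q * T = T * q := by
      rw [hq, smul_mul_assoc, mul_smul_comm, sub_mul, mul_sub, one_mul, mul_one, smul_mul_assoc,
        mul_smul_comm]
    rw [mul_assoc, e1, ← mul_assoc, hA, neg_mul, mul_assoc]
  refine ⟨J * p + J' * q, ?_, ?_⟩
  · have f1 : J * p * (J * p) = 0 := by
      rw [mul_assoc, ← mul_assoc p, ← c2 J hJT, mul_assoc J q, hqp0, mul_zero, mul_zero]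
    have f2 : J * p * (J' * q) = q := by
      rw [mul_assoc, ← mul_assoc p, ← c2 J' hJT', mul_assoc J' q, hq2, ← mul_assoc, hJJ, one_mul]
    have f3 : J' * q * (J * p) = p := by
      rw [mul_assoc, ← mul_assoc q, ← c1 J hJT, mul_assoc J p, hp2, ← mul_assoc, hJJ', one_mul]
    have f4 : J' * q * (J' * q) = 0 := by
      rw [mul_assoc, ← mul_assoc q, ← c1 J' hJT', mul_assoc J' p, hpq0, mul_zero, mul_zero]
    rw [add_mul, mul_add, mul_add, f1, f2, f3, f4, zero_add, add_zero, add_comm, hpq]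
  · rw [add_mul, mul_add, d1 J hJT, d2 J' hJT', neg_add]

/-- **An element with separable square.** -/
theorem exists_sepJ [GFF k] (hS : SetF k K D d s) (hm : 0 < m)
    (hdeg : finrank K D = (2 * m) ^ 2) (B : Basis (Fin N) k D) {a : kˣ} {t : D}
    (ht : t ∈ XaF D a) (ha : ¬ IsSquare (a : k)) :
    ∃ j0 ∈ Wt t, j0 ≠ 0 ∧ (minpoly k (j0 * j0)).Separable := by
  have hsm := hS.starModule
  have hA := hS.anis hdeg
  have hcen := hA.central
  have hsim := hA.simple
  have h2k := hS.two_ne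
  have hn0 : 2 * m ≠ 0 := by omega
  obtain ⟨j0, hj0, hj00⟩ := exists_j0 hS ht ha
  obtain ⟨T, hT⟩ := exists_split_ae (k := k) (A := D) hA.fixed hn0 hA.finrank_eq
  obtain ⟨v, hvT, ⟨α, hα⟩, hd⟩ := exists_place_sq h2k a d T.finite_toSet
  obtain ⟨φ⟩ := (H74.CompsF.split_iff hS v).mp hd
  let _ := nnfPlace v
  have hn1 : ∀ c : k, ‖(φ : K →+* v.comp) (algebraMap k K c)‖ = v.abv c := fun c => by
    change ‖φ (algebraMap k K c)‖ = _
    rw [φ.commutes, norm_alg]
  obtain ⟨g, hg⟩ := hT v hvT v.comp (φ : K →+* v.comp) hn1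
  have hspan := H519.span_swap hA.finrank_eq hn0 hA.star_ne (φ : K →+* v.comp) g hg
  have h2L : (2 : v.comp) ≠ 0 := by
    rw [← map_ofNat (algebraMap k v.comp) 2]
    exact (_root_.map_ne_zero _).mpr h2k
  have hTT : g t * g t = (α ^ 2) • 1 := by
    rw [← map_mul, ht.2, IsScalarTower.algebraMap_apply k K D, hg, Algebra.algebraMap_eq_smul_one,
      hα]
    congr 1
    exact φ.commutes _
  have hα0 : α ≠ 0 := by
    rintro rfl
    rw [zero_pow two_ne_zero, eq_comm, map_eq_zero] at hα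
    exact a.ne_zero hα
  obtain ⟨Y0, h3, h4⟩ := exists_invol h2L hα0 hTT (J := g j0) (J' := g j0⁻¹)
    (by rw [← map_mul, mul_inv_cancel₀ hj00, map_one])
    (by rw [← map_mul, inv_mul_cancel₀ hj00, map_one])
    (by rw [← map_mul, hj0.2, map_neg, map_mul])
  obtain ⟨c, hc0, hc⟩ := exists_incr v m
  obtain ⟨Y, h5, h6⟩ := exists_mat h2L (pow_ne_zero 2 hα0) rfl hTT h3 h4
    fun i => φ (algebraMap k K (c i))
  have h7 : Y ∈ closure (g '' Wt t) := mem_closure_W (φ := (φ : K →+* v.comp)) hS hg ht h5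
    fun O hO => H565.dense_sym_FF hA hg hspan _ hO
  obtain ⟨jv, hjv, ε, hε, hball⟩ := exists_ball (φ := (φ : K →+* v.comp)) hS B ht hn1 hm rfl hg
    hc0 hc h7 h6
  obtain ⟨h8, -, h9, -⟩ := ball_spec hS B hc0 hc hball hjv (by
    rw [sub_self]
    exact H698.sm_zero hε)
  exact ⟨jv, hjv, h8, h9⟩

end Vale.Agent.P011.H872.GF
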